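import Vale.Agent.P321.Core

/-!
P321 module BASE (M8a): the base state of the recursion.
-/

namespace P321.BASE

open P321

theorem nrm_X (b : Bool) : nrm (X b) = 1 := by
  classical
  unfold nrm X
  have h : (MonoidAlgebra.single (FreeMonoid.of b) (1 : ℝ)).coeff
      = Finsupp.single (FreeMonoid.of b) (1 : ℝ) := rfl
  rw [h, Finsupp.support_single_ne_zero _ (one_ne_zero), Finset.sum_singleton,
    Finsupp.single_eq_same, abs_one]

theorem T_of (q : ℝ) (b : Bool) :
    T q (FreeMonoid.of b) = q • (1 : Alg) + (1 - q) • X b := by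
  unfold T
  rw [FreeMonoid.lift_eval_of]

theorem T_two (q : ℝ) (b c : Bool) :
    T q (FreeMonoid.of b * FreeMonoid.of c)
      = (q ^ 2) • (1 : Alg) + ((q * (1 - q)) • X b + ((q * (1 - q)) • X c
        + ((1 - q) ^ 2) • (X b * X c))) := by
  rw [map_mul, T_of, T_of, add_mul, mul_add, mul_add]
  simp only [smul_mul_assoc, mul_smul_comm, one_mul, mul_one, smul_smul]
  rw [show q * q = q ^ 2 by ring, show (1 - q) * q = q * (1 - q) by ring,
    show (1 - q) * (1 - q) = (1 - q) ^ 2 by ring]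
  abel

theorem close (hn : IsNrm nrm) (q : ℝ) :
    nrm (T q (FreeMonoid.of true * FreeMonoid.of false)
      - T q (FreeMonoid.of false * FreeMonoid.of true)) ≤ 2 * (1 - q) ^ 2 := by
  have h : T q (FreeMonoid.of true * FreeMonoid.of false)
      - T q (FreeMonoid.of false * FreeMonoid.of true)
      = ((1 - q) ^ 2) • (X true * X false) + (-(1 - q) ^ 2) • (X false * X true) := by
    rw [T_two, T_two, neg_smul]
    abel
  rw [h]
  refine (hn.add_le _ _).trans ?_
  rw [hn.smul, hn.smul, abs_neg, abs_of_nonneg (sq_nonneg (1 - q))]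
  have h1 : nrm (X true * X false) ≤ 1 := by
    refine (hn.mul_le _ _).trans ?_
    rw [nrm_X, nrm_X]; norm_num
  have h2 : nrm (X false * X true) ≤ 1 := by
    refine (hn.mul_le _ _).trans ?_
    rw [nrm_X, nrm_X]; norm_num
  nlinarith [sq_nonneg (1 - q)]

theorem nrm_c (hn : IsNrm nrm) (q : ℝ) (h0 : 0 ≤ q) (h1 : q ≤ 1) (hq : 1 / 2 ≤ q ^ 2) :
    nrm (T q (FreeMonoid.of false * FreeMonoid.of true)
      - (1 / 4 : ℝ) • (1 + T q (FreeMonoid.of false * FreeMonoid.of true))) ≤ 1 - 1 / 2 := by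
  have h : T q (FreeMonoid.of false * FreeMonoid.of true)
      - (1 / 4 : ℝ) • (1 + T q (FreeMonoid.of false * FreeMonoid.of true))
      = (3 / 4 * q ^ 2 - 1 / 4) • (1 : Alg) + ((3 / 4 * (q * (1 - q))) • X false
        + ((3 / 4 * (q * (1 - q))) • X true
        + (3 / 4 * (1 - q) ^ 2) • (X false * X true))) := by
    rw [T_two]
    module
  rw [h]
  have hqq : 0 ≤ q * (1 - q) := mul_nonneg h0 (by linarith)
  have e1 : nrm ((3 / 4 * q ^ 2 - 1 / 4 : ℝ) • (1 : Alg)) ≤ 3 / 4 * q ^ 2 - 1 / 4 := by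
    rw [hn.smul, abs_of_nonneg (by linarith)]
    have := hn.one_le
    nlinarith
  have e2 : nrm ((3 / 4 * (q * (1 - q)) : ℝ) • X false) ≤ 3 / 4 * (q * (1 - q)) := by
    rw [hn.smul, abs_of_nonneg (by linarith), nrm_X, mul_one]
  have e3 : nrm ((3 / 4 * (q * (1 - q)) : ℝ) • X true) ≤ 3 / 4 * (q * (1 - q)) := by
    rw [hn.smul, abs_of_nonneg (by linarith), nrm_X, mul_one]
  have e4 : nrm ((3 / 4 * (1 - q) ^ 2 : ℝ) • (X false * X true)) ≤ 3 / 4 * (1 - q) ^ 2 := by
    have hp : 0 ≤ 3 / 4 * (1 - q) ^ 2 := by positivity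
    rw [hn.smul, abs_of_nonneg hp]
    have h2 : nrm (X false * X true) ≤ 1 := by
      refine (hn.mul_le _ _).trans ?_
      rw [nrm_X, nrm_X]; norm_num
    calc 3 / 4 * (1 - q) ^ 2 * nrm (X false * X true)
        ≤ 3 / 4 * (1 - q) ^ 2 * 1 := mul_le_mul_of_nonneg_left h2 hp
      _ = _ := mul_one _
  have a1 := hn.add_le ((3 / 4 * q ^ 2 - 1 / 4 : ℝ) • (1 : Alg))
    ((3 / 4 * (q * (1 - q)) : ℝ) • X false + ((3 / 4 * (q * (1 - q)) : ℝ) • X true
        + (3 / 4 * (1 - q) ^ 2 : ℝ) • (X false * X true)))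
  have a2 := hn.add_le ((3 / 4 * (q * (1 - q)) : ℝ) • X false)
    ((3 / 4 * (q * (1 - q)) : ℝ) • X true + (3 / 4 * (1 - q) ^ 2 : ℝ) • (X false * X true))
  have a3 := hn.add_le ((3 / 4 * (q * (1 - q)) : ℝ) • X true)
    ((3 / 4 * (1 - q) ^ 2 : ℝ) • (X false * X true))
  nlinarith

theorem hid (hn : IsNrm nrm) (hl : LawStatement) (hr : RateStatement)
    (q : ℝ) (h0 : 0 ≤ q) (h1 : q ≤ 1) (hq : 1 / 2 ≤ q ^ 2) :
    Hid nrm (T q (FreeMonoid.of false * FreeMonoid.of true)) (2 ^ 0) := by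
  intro m hm
  have hc := nrm_c hn q h0 h1 hq
  have ha : nrm (T q (FreeMonoid.of false * FreeMonoid.of true)) = 1 := (hl q h0 h1 _).1
  generalize T q (FreeMonoid.of false * FreeMonoid.of true) = a at hc ha ⊢
  have hX : nrm ((1 / 2 : ℝ) • (1 : Alg)) ≤ 1 / 2 := by
    rw [hn.smul, abs_of_pos (by norm_num)]
    have := hn.one_le
    linarith
  have hdec : a ^ (0 + 1) = ((1 / 2 : ℝ) • (1 : Alg)) * ((1 / 2 : ℝ) • (1 + a))
      + (a - (1 / 4 : ℝ) • (1 + a)) := by
    rw [zero_add, pow_one, smul_mul_assoc, one_mul, smul_smul]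
    norm_num
  have key := hr Alg nrm hn a ((1 / 2 : ℝ) • (1 : Alg)) (a - (1 / 4 : ℝ) • (1 + a)) 0 (1 / 2)
    ha.le (by norm_num) (by norm_num) hdec hX hc m 0
  rw [pow_zero, one_mul, zero_add, one_mul] at key
  have hm' : (1 : ℝ) ≤ m := by exact_mod_cast hm
  have hnn := hn.nonneg (a ^ m * (a - 1))
  have h16 : nrm (a ^ m * (a - 1)) ^ 2 ≤ (4 * Real.sqrt (2 ^ 0 / (m : ℝ))) ^ 2 := by
    refine key.trans ?_
    rw [mul_pow, Real.sq_sqrt (by positivity)]
    have hm0 : (0 : ℝ) < m := by linarith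
    rw [div_le_iff₀ (by positivity)]
    have : (4 : ℝ) ^ 2 * (2 ^ 0 / (m : ℝ)) * (((0 : ℕ) : ℝ) + 1 + 1 / 2 * (m : ℝ) / 2)
        = 16 / m + 4 := by
      field_simp
      push_cast
      ring
    rw [this]
    have : (0 : ℝ) ≤ 16 / m := by positivity
    linarith
  exact (pow_le_pow_iff_left₀ hnn (by positivity) (by norm_num)).1 h16

end P321.BASE

namespace P321

open P321.BASE

theorem base (hn : NrmStatement) (hl : LawStatement) (hr : RateStatement) : BaseStatement := by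
  intro q h0 h1 hq x hx
  refine ⟨FreeMonoid.of false * FreeMonoid.of true, FreeMonoid.of true * FreeMonoid.of false,
    ?_, ?_, ?_, (close hn q).trans hx, hid hn hl hr q h0 h1 hq⟩
  · intro h
    have := congrArg FreeMonoid.toList h
    simp at this
  · simp [FreeMonoid.length_mul]
  · simp [FreeMonoid.length_mul]

end P321
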