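import Vale.Agent.P321.NRM

/-! # P321, module COM: the common part of `a^K` and `a^(K+1)` -/

namespace P321

namespace COM

open NRM

/-- pointwise minimum -/
noncomputable def mn (f g : Alg) : Alg :=
  MonoidAlgebra.ofCoeff (Finsupp.zipWith min (min_self (0 : ℝ)) f.coeff g.coeff)

lemma mn_coeff (f g : Alg) (w : W) : (mn f g).coeff w = min (f.coeff w) (g.coeff w) := by
  unfold mn
  rw [MonoidAlgebra.coeff_ofCoeff, Finsupp.zipWith_apply]

lemma mn_nonneg {f g : Alg} (hf : ∀ z, 0 ≤ f.coeff z) (hg : ∀ z, 0 ≤ g.coeff z) (w : W) :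
    0 ≤ (mn f g).coeff w := by
  rw [mn_coeff]; exact le_min (hf w) (hg w)

lemma coeff_sub_apply (f g : Alg) (w : W) : (f - g).coeff w = f.coeff w - g.coeff w := by
  rw [MonoidAlgebra.coeff_sub, Finsupp.sub_apply]

lemma tot_eq_sum_of_subset (f : Alg) (s : Finset (FreeMonoid Bool))
    (h : f.coeff.support ⊆ s) : tot f = ∑ w ∈ s, f.coeff w := by
  rw [tot_eq_sum]
  refine Finset.sum_subset h (fun w _ hw => ?_)
  rw [Finsupp.notMem_support_iff.1 hw]

lemma mn_tot (f g : Alg) : tot (mn f g) = (tot f + tot g - nrm (f - g)) / 2 := by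
  classical
  set S := f.coeff.support ∪ g.coeff.support with hS
  have h1 : f.coeff.support ⊆ S := Finset.subset_union_left
  have h2 : g.coeff.support ⊆ S := Finset.subset_union_right
  have h3 : (f - g).coeff.support ⊆ S := by
    rw [MonoidAlgebra.coeff_sub]; exact Finsupp.support_sub
  have h4 : (mn f g).coeff.support ⊆ S := by
    intro w hw
    rw [Finsupp.mem_support_iff, mn_coeff] at hw
    rw [hS, Finset.mem_union, Finsupp.mem_support_iff, Finsupp.mem_support_iff]
    by_contra hcon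
    push Not at hcon
    apply hw
    rw [hcon.1, hcon.2, min_self]
  rw [tot_eq_sum_of_subset _ _ h1, tot_eq_sum_of_subset _ _ h2, tot_eq_sum_of_subset _ _ h4,
    nrm_eq_sum_of_subset _ _ h3, ← Finset.sum_add_distrib, ← Finset.sum_sub_distrib,
    Finset.sum_div]
  apply Finset.sum_congr rfl
  intro w _
  rw [mn_coeff, coeff_sub_apply, min_def]
  split_ifs with h
  · rw [abs_of_nonpos (by linarith)]; ring
  · rw [abs_of_nonneg (by linarith [not_le.1 h])]; ring

/-- coefficientwise order via nonnegativity of the difference -/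
lemma sub_nonneg_of_le {f g : Alg} (h : ∀ z, f.coeff z ≤ g.coeff z) (z : W) :
    0 ≤ (g - f).coeff z := by
  rw [coeff_sub_apply]; linarith [h z]

end COM

open NRM COM in
theorem common : CommonStatement := by
  intro a ha hna K hK
  have htot : tot a = 1 := by rw [← nrm_eq_tot ha]; exact hna
  have hpn : ∀ k, ∀ z, 0 ≤ (a ^ k).coeff z := fun k => coeff_pow_nonneg ha k
  have hpt : ∀ k, tot (a ^ k) = 1 := fun k => by rw [map_pow, htot, one_pow]
  set Y := mn (a ^ (K + 1)) (a ^ K) with hY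
  have hYn : ∀ z, 0 ≤ Y.coeff z := mn_nonneg (hpn _) (hpn _)
  have hYt : tot Y = (1 + 1 - nrm (a ^ (K + 1) - a ^ K)) / 2 := by
    rw [hY, mn_tot, hpt, hpt]
  refine ⟨Y, a ^ (K + 1) - Y * ((1 / 2 : ℝ) • (1 + a)), tot Y, ?_, ?_, ?_, ?_, ?_⟩
  · rw [hYt]; linarith
  · rw [hYt]; linarith [nrm_nonneg (a ^ (K + 1) - a ^ K)]
  · abel
  · rw [nrm_eq_tot hYn]
  · have e : a ^ (K + 1) - Y * ((1 / 2 : ℝ) • (1 + a))
        = (1 / 2 : ℝ) • (a ^ (K + 1) - Y) + (1 / 2 : ℝ) • ((a ^ K - Y) * a) := by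
      have e1 : Y * ((1 / 2 : ℝ) • (1 + a)) = (1 / 2 : ℝ) • Y + (1 / 2 : ℝ) • (Y * a) := by
        rw [mul_smul_comm, mul_add, mul_one, smul_add]
      have e2 : a ^ (K + 1) = (1 / 2 : ℝ) • a ^ (K + 1) + (1 / 2 : ℝ) • (a ^ K * a) := by
        rw [← pow_succ, ← add_smul]; norm_num
      rw [e1, sub_mul, smul_sub, smul_sub]
      conv_lhs => rw [e2]
      abel
    have hc : ∀ z, 0 ≤ (a ^ (K + 1) - Y * ((1 / 2 : ℝ) • (1 + a))).coeff z := by
      rw [e]
      refine coeff_add_nonneg (coeff_smul_nonneg (by norm_num) ?_)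
        (coeff_smul_nonneg (by norm_num) ?_)
      · refine sub_nonneg_of_le (fun z => ?_)
        rw [hY, mn_coeff]; exact min_le_left _ _
      · refine coeff_mul_nonneg ?_ ha
        refine sub_nonneg_of_le (fun z => ?_)
        rw [hY, mn_coeff]; exact min_le_right _ _
    rw [nrm_eq_tot hc, map_sub, map_mul, map_smul, map_add, map_one, htot, hpt]
    simp only [smul_eq_mul]
    linarith

end P321
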