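import Mathlib

/-!
P321: lower bound for worst-case trace reconstruction, deletion probability near one.
Definitions and module statements.  See notes/P321_plan.md.
-/

namespace P321

/-! ### The problem -/

/-- Probability that exactly the positions in `S` survive, for a string of length `n`
and deletion probability `q`. -/
noncomputable def retainProb (q : ℝ) {n : ℕ} (S : Finset (Fin n)) : ℝ :=
  (1 - q) ^ S.card * q ^ (n - S.card)

/-- The trace of `x` when exactly the positions in `S` survive: the surviving bits in their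
original order. -/
def trace {n : ℕ} (x : Fin n → Bool) (S : Finset (Fin n)) : List Bool :=
  ((List.finRange n).filter (fun i => decide (i ∈ S))).map x

/-- Probability that the (randomized) estimator `est` outputs `x` when given `m` independent
traces of `x`: the sum is over the `m` surviving sets. -/
noncomputable def successProb (q : ℝ) {n m : ℕ}
    (est : (Fin m → List Bool) → (Fin n → Bool) → ℝ) (x : Fin n → Bool) : ℝ :=
  ∑ S : Fin m → Finset (Fin n), (∏ i, retainProb q (S i)) * est (fun i => trace x (S i)) x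

/-- Some randomized estimator reconstructs every `x : Fin n → Bool` from `m` traces with
probability at least `2/3`. -/
def Reconstructs (q : ℝ) (n m : ℕ) : Prop :=
  ∃ est : (Fin m → List Bool) → (Fin n → Bool) → ℝ,
    (∀ ω x, 0 ≤ est ω x) ∧ (∀ ω, ∑ x, est ω x = 1) ∧ ∀ x, 2 / 3 ≤ successProb q est x

/-- The worst-case sample complexity of trace reconstruction. -/
noncomputable def sampleComplexity (q : ℝ) (n : ℕ) : ℕ∞ :=
  ⨅ (m : ℕ) (_ : Reconstructs q n m), (m : ℕ∞)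

/-! ### Abstract part: a submultiplicative norm on a real algebra -/

structure IsNrm {A : Type} [Ring A] [Algebra ℝ A] (N : A → ℝ) : Prop where
  nonneg : ∀ x, 0 ≤ N x
  add_le : ∀ x y, N (x + y) ≤ N x + N y
  mul_le : ∀ x y, N (x * y) ≤ N x * N y
  smul : ∀ (r : ℝ) (x : A), N (r • x) = |r| * N x
  one_le : N 1 ≤ 1

/-- hiding property with constant `κ` -/
def Hid {A : Type} [Ring A] [Algebra ℝ A] (N : A → ℝ) (a : A) (κ : ℝ) : Prop :=
  ∀ m : ℕ, 1 ≤ m → N (a ^ m * (a - 1)) ≤ 4 * Real.sqrt (κ / m)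

/-- the pair of complementary Thue-Morse words of length `2^j` in two letters -/
def tm {M : Type} [Mul M] (a b : M) : ℕ → M × M
  | 0 => (a, b)
  | j + 1 => ((tm a b j).1 * (tm a b j).2, (tm a b j).2 * (tm a b j).1)

/-- M1 -/
def LazyStatement : Prop :=
  ∀ (A : Type) [Ring A] [Algebra ℝ A] (N : A → ℝ), IsNrm N → ∀ a : A, N a ≤ 1 →
    ∀ j : ℕ, N (((1 / 2 : ℝ) • (1 + a)) ^ j * (a - 1)) ^ 2 ≤ 4 / ((j : ℝ) + 1)

/-- M2 -/
def RateStatement : Prop :=
  ∀ (A : Type) [Ring A] [Algebra ℝ A] (N : A → ℝ), IsNrm N → ∀ a X c : A, ∀ K : ℕ, ∀ η : ℝ,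
    N a ≤ 1 → 0 ≤ η → η ≤ 1 → a ^ (K + 1) = X * ((1 / 2 : ℝ) • (1 + a)) + c →
    N X ≤ η → N c ≤ 1 - η →
    ∀ J j0 : ℕ, N (a ^ ((K + 1) * J) * (((1 / 2 : ℝ) • (1 + a)) ^ j0 * (a - 1))) ^ 2
      ≤ 4 / ((j0 : ℝ) + 1 + η * J / 2)

/-- M5 : Thue-Morse step -/
def TMStatement : Prop :=
  ∀ (A : Type) [Ring A] [Algebra ℝ A] (N : A → ℝ), IsNrm N → ∀ a b : A, ∀ R n : ℕ, ∀ ε β : ℝ,
    N a ≤ 1 → N b ≤ 1 → N (b - a) ≤ ε → 2 ^ R * N (a ^ n * (a - 1)) ≤ β → β ≤ 1 / 2 →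
    N (a ^ (R * n) * ((tm a b R).1 - (tm a b R).2) * a ^ (R * n)) ≤ β ^ R * ε + 4 ^ R * ε ^ 2

/-- M6 : hiding at the next level, before rescaling -/
def NextStatement : Prop :=
  ∀ (A : Type) [Ring A] [Algebra ℝ A] (N : A → ℝ), IsNrm N → ∀ a b : A, ∀ R s m : ℕ, ∀ ε : ℝ,
    N a ≤ 1 → N b ≤ 1 → N (b - a) ≤ ε →
    N ((a ^ s * (tm a b R).1 * a ^ s) ^ (m + 1) - (a ^ s * (tm a b R).1 * a ^ s) ^ m)
      ≤ (2 * m + 1) * 2 ^ R * ε
        + (2 * s + 2 ^ R : ℕ) * N (a ^ ((2 * s + 2 ^ R) * m) * (a - 1))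

/-! ### The concrete algebra: finitely supported functions on words, l^1 norm -/

abbrev W := FreeMonoid Bool

abbrev Alg := MonoidAlgebra ℝ (FreeMonoid Bool)

noncomputable def nrm (f : Alg) : ℝ := ∑ w ∈ f.coeff.support, |f.coeff w|

noncomputable def X (b : Bool) : Alg := MonoidAlgebra.single (FreeMonoid.of b) 1

/-- the law of the trace of a word, as an element of the algebra -/
noncomputable def T (q : ℝ) : W →* Alg :=
  FreeMonoid.lift (fun b => q • (1 : Alg) + (1 - q) • X b)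

/-- M3a -/
def NrmStatement : Prop := IsNrm nrm

/-- M3b : laws have norm one and nonnegative coefficients -/
def LawStatement : Prop :=
  ∀ q : ℝ, 0 ≤ q → q ≤ 1 → ∀ w : W, nrm (T q w) = 1 ∧ ∀ z, 0 ≤ (T q w).coeff z

/-- M3c : the common part of `a^K` and `a^(K+1)` -/
def CommonStatement : Prop :=
  ∀ a : Alg, (∀ z, 0 ≤ a.coeff z) → nrm a = 1 → ∀ K : ℕ, nrm (a ^ (K + 1) - a ^ K) ≤ 1 →
    ∃ (Y c : Alg) (η : ℝ), 1 / 2 ≤ η ∧ η ≤ 1 ∧ a ^ (K + 1) = Y * ((1 / 2 : ℝ) • (1 + a)) + c ∧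
      nrm Y ≤ η ∧ nrm c ≤ 1 - η

/-- M4 : hiding from overlap -/
def HidStatement : Prop :=
  ∀ q : ℝ, 0 ≤ q → q ≤ 1 → ∀ w : W, ∀ K : ℕ, nrm ((T q w) ^ (K + 1) - (T q w) ^ K) ≤ 1 →
    Hid nrm (T q w) (K + 1)

/-- State of the recursion: two different words of the same length `≤ 2^(c+1)`, whose trace laws
are `2^(-x)`-close, with hiding constant `2^c`. -/
def State (q : ℝ) (x c : ℕ) : Prop :=
  ∃ A B : W, A ≠ B ∧ A.length = B.length ∧ A.length ≤ 2 ^ (c + 1) ∧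
    nrm (T q B - T q A) ≤ (1 / 2) ^ x ∧ Hid nrm (T q A) (2 ^ c)

/-- M7 : one level -/
def StepStatement : Prop :=
  ∀ q : ℝ, 0 ≤ q → q ≤ 1 → ∀ x c R y : ℕ, State q x c → 1 ≤ R → 1 ≤ y → x ≤ R * y →
    2 * c + 4 * R + 2 * y + 15 ≤ x →
    State q (2 * x - 2 * R - 1) (2 * c + 3 * R + 2 * y + 13)

/-- M8a : base -/
def BaseStatement : Prop :=
  ∀ q : ℝ, 0 ≤ q → q ≤ 1 → 1 / 2 ≤ q ^ 2 → ∀ x : ℕ, 2 * (1 - q) ^ 2 ≤ (1 / 2) ^ x → State q x 0

/-- M8b : numeric recursion.  For every `C` there is `x0` such that from the base state one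
reaches, for every large `n`, a state whose words have length at most `n` and whose
closeness is at most `1 / (4 n^C)`. -/
def NumStatement : Prop :=
  ∀ C : ℕ, ∃ x0 : ℕ, ∀ P : ℕ → ℕ → Prop, P x0 0 →
    (∀ x c R y : ℕ, P x c → 1 ≤ R → 1 ≤ y → x ≤ R * y → 2 * c + 4 * R + 2 * y + 15 ≤ x →
      P (2 * x - 2 * R - 1) (2 * c + 3 * R + 2 * y + 13)) →
    ∃ n0 : ℕ, ∀ n : ℕ, n0 ≤ n → ∃ x c : ℕ, P x c ∧ 2 ^ (c + 1) ≤ n ∧ 4 * n ^ C ≤ 2 ^ x

/-- M9a : the algebra element `T q w` is the law of the trace -/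
def LinkStatement : Prop :=
  ∀ (q : ℝ) (n : ℕ) (x : Fin n → Bool) (z : List Bool),
    (T q (FreeMonoid.ofList (List.ofFn x))).coeff (FreeMonoid.ofList z)
      = ∑ S : Finset (Fin n), if trace x S = z then retainProb q S else 0

/-- M9b : sample complexity from closeness of two laws -/
def SampStatement : Prop :=
  ∀ q : ℝ, 0 ≤ q → q ≤ 1 → ∀ n m : ℕ, ∀ x y : Fin n → Bool, x ≠ y → Reconstructs q n m →
    1 / 3 ≤ (m : ℝ) * nrm (T q (FreeMonoid.ofList (List.ofFn y))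
      - T q (FreeMonoid.ofList (List.ofFn x)))

/-- Final statement -/
def MainStatement : Prop :=
  ∀ C : ℕ, ∃ q0 : ℝ, q0 < 1 ∧ ∀ q : ℝ, q0 ≤ q → q < 1 →
    ∃ n0 : ℕ, ∀ n : ℕ, n0 ≤ n → ((n ^ C : ℕ) : ℕ∞) ≤ sampleComplexity q n

end P321
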