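import Mathlib
import Vale.Agent.P321.Core

/-! Assembly of the main statement from the modules. -/

namespace P321

theorem ofFn_cast {n : ℕ} (l : List Bool) (h : l.length = n) :
    List.ofFn (fun i : Fin n => l.get (i.cast h.symm)) = l := by
  subst h
  simp

theorem main_of (hnrm : NrmStatement) (hlaw : LawStatement) (hstep : StepStatement)
    (hbase : BaseStatement) (hnum : NumStatement) (hsamp : SampStatement) : MainStatement := by
  intro C
  obtain ⟨x0, hx0⟩ := hnum C
  set δ : ℝ := (1 / 2) ^ (x0 + 3) with hδ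
  have hδpos : 0 < δ := by positivity
  have hδle : δ ≤ 1 / 8 := by
    have : ((1 : ℝ) / 2) ^ (x0 + 3) = (1 / 2) ^ x0 * (1 / 8) := by
      rw [pow_add]; norm_num
    rw [hδ, this]
    have h1 : ((1 : ℝ) / 2) ^ x0 ≤ 1 := pow_le_one₀ (by norm_num) (by norm_num)
    linarith
  refine ⟨1 - δ, by linarith, ?_⟩
  intro q hq hq1
  have hq0 : 0 ≤ q := by linarith
  have hsq : 1 / 2 ≤ q ^ 2 := by nlinarith
  have hp : 2 * (1 - q) ^ 2 ≤ (1 / 2) ^ x0 := by
    have h1 : 1 - q ≤ δ := by linarith
    have h2 : 0 ≤ 1 - q := by linarith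
    have h3 : (1 - q) ^ 2 ≤ δ * 1 := by nlinarith
    have h4 : δ = (1 / 2) ^ x0 * (1 / 8) := by
      rw [hδ, pow_add]; norm_num
    have h5 : (0 : ℝ) < (1 / 2) ^ x0 := by positivity
    nlinarith
  obtain ⟨n0, hn0⟩ := hx0 (State q) (hbase q hq0 hq1.le hsq x0 hp)
    (fun x c R y h1 h2 h3 h4 h5 => hstep q hq0 hq1.le x c R y h1 h2 h3 h4 h5)
  refine ⟨n0, ?_⟩
  intro n hn
  obtain ⟨x, c, ⟨A, B, hAB, hlen, hlenle, hclose, -⟩, hcn, hxn⟩ := hn0 n hn
  -- pad the two words to length n
  set pad : List Bool := List.replicate (n - A.length) true with hpad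
  have hlA : (A.toList ++ pad).length = n := by
    have : A.toList.length = A.length := rfl
    rw [List.length_append, hpad, List.length_replicate, this]; omega
  have hlB : (B.toList ++ pad).length = n := by
    have : B.toList.length = B.length := rfl
    rw [List.length_append, hpad, List.length_replicate, this]; omega
  set u : Fin n → Bool := fun i => (A.toList ++ pad).get (i.cast hlA.symm) with hu
  set v : Fin n → Bool := fun i => (B.toList ++ pad).get (i.cast hlB.symm) with hv
  have hou : List.ofFn u = A.toList ++ pad := ofFn_cast _ hlA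
  have hov : List.ofFn v = B.toList ++ pad := ofFn_cast _ hlB
  have huv : u ≠ v := by
    intro h
    apply hAB
    have h1 : A.toList ++ pad = B.toList ++ pad := by rw [← hou, ← hov, h]
    have h2 : A.toList = B.toList := List.append_cancel_right h1
    exact FreeMonoid.toList.injective h2
  have hTu : T q (FreeMonoid.ofList (List.ofFn u)) = T q A * T q (FreeMonoid.ofList pad) := by
    rw [hou, FreeMonoid.ofList_append, map_mul, FreeMonoid.ofList_toList]
  have hTv : T q (FreeMonoid.ofList (List.ofFn v)) = T q B * T q (FreeMonoid.ofList pad) := by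
    rw [hov, FreeMonoid.ofList_append, map_mul, FreeMonoid.ofList_toList]
  have hd : nrm (T q (FreeMonoid.ofList (List.ofFn v)) - T q (FreeMonoid.ofList (List.ofFn u)))
      ≤ (1 / 2) ^ x := by
    rw [hTu, hTv, ← sub_mul]
    calc nrm ((T q B - T q A) * T q (FreeMonoid.ofList pad))
        ≤ nrm (T q B - T q A) * nrm (T q (FreeMonoid.ofList pad)) := hnrm.mul_le _ _
      _ = nrm (T q B - T q A) := by rw [(hlaw q hq0 hq1.le _).1, mul_one]
      _ ≤ (1 / 2) ^ x := hclose
  unfold sampleComplexity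
  refine le_iInf₂ ?_
  intro m hm
  have h3 := hsamp q hq0 hq1.le n m u v huv hm
  have h4 : (1 : ℝ) / 3 ≤ (m : ℝ) * (1 / 2) ^ x :=
    h3.trans (mul_le_mul_of_nonneg_left hd (Nat.cast_nonneg m))
  have h5 : (2 : ℝ) ^ x ≤ 3 * m := by
    have h6 : (0 : ℝ) < 2 ^ x := by positivity
    have h7 : (m : ℝ) * (1 / 2) ^ x = m / 2 ^ x := by
      rw [div_pow, one_pow]; ring
    rw [h7, le_div_iff₀ h6] at h4
    linarith
  have h8 : 4 * n ^ C ≤ 3 * m := by
    have : ((4 * n ^ C : ℕ) : ℝ) ≤ ((3 * m : ℕ) : ℝ) := by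
      have h9 : ((4 * n ^ C : ℕ) : ℝ) ≤ ((2 ^ x : ℕ) : ℝ) := by exact_mod_cast hxn
      have h10 : ((2 ^ x : ℕ) : ℝ) = 2 ^ x := by push_cast; ring
      have h11 : ((3 * m : ℕ) : ℝ) = 3 * m := by push_cast; ring
      rw [h11]; rw [h10] at h9; linarith
    exact_mod_cast this
  have h12 : n ^ C ≤ m := by omega
  exact_mod_cast h12

end P321
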