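import Vale.Agent.P321.Core

/-! # P321, module HID: hiding from overlap -/

namespace P321

theorem hid (hl : LawStatement) (hn : NrmStatement) (hc : CommonStatement)
    (hr : RateStatement) : HidStatement := by
  intro q h0 h1 w K hK m hm
  have hN : IsNrm nrm := hn
  obtain ⟨hw1, hwn⟩ := hl q h0 h1 w
  set a := T q w with ha
  obtain ⟨Y, c, η, hη, hη1, hdec, hY, hcn⟩ := hc a hwn hw1 K hK
  set J := m / (K + 1) with hJ
  have hJ1 : (K + 1) * J ≤ m := Nat.mul_div_le m (K + 1)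
  have hJ2 : m < (K + 1) * (J + 1) := by
    have := Nat.lt_mul_div_succ m (Nat.succ_pos K)
    simpa [hJ] using this
  have h2 := hr Alg nrm hN a Y c K η hw1.le (by linarith) hη1 hdec hY hcn J 0
  rw [pow_zero, one_mul] at h2
  have hpow : ∀ k, nrm (a ^ k) ≤ 1 := by
    intro k
    have : a ^ k = T q (w ^ k) := by rw [ha, map_pow]
    rw [this, (hl q h0 h1 _).1]
  have h3 : nrm (a ^ m * (a - 1)) ≤ nrm (a ^ ((K + 1) * J) * (a - 1)) := by
    have e : a ^ m * (a - 1) = a ^ (m - (K + 1) * J) * (a ^ ((K + 1) * J) * (a - 1)) := by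
      rw [← mul_assoc, ← pow_add]
      congr 2
      omega
    rw [e]
    calc nrm (a ^ (m - (K + 1) * J) * (a ^ ((K + 1) * J) * (a - 1)))
        ≤ nrm (a ^ (m - (K + 1) * J)) * nrm (a ^ ((K + 1) * J) * (a - 1)) := hN.mul_le _ _
      _ ≤ 1 * nrm (a ^ ((K + 1) * J) * (a - 1)) :=
        mul_le_mul_of_nonneg_right (hpow _) (hN.nonneg _)
      _ = _ := one_mul _
  refine h3.trans ?_
  refine le_of_sq_le_sq (h2.trans ?_) (by positivity)
  have hm0 : (0 : ℝ) < m := by exact_mod_cast hm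
  have hJ2' : (m : ℝ) < ((K : ℝ) + 1) * (J + 1) := by exact_mod_cast hJ2
  have hJ0 : (0 : ℝ) ≤ J := Nat.cast_nonneg J
  have hK0 : (0 : ℝ) ≤ K := Nat.cast_nonneg K
  rw [mul_pow, Real.sq_sqrt (by positivity)]
  have e4 : (4 : ℝ) ^ 2 * (((K : ℝ) + 1) / m) = (16 * (K + 1)) / m := by ring
  rw [e4]
  have h5 : (0 : ℝ) < ((0 : ℕ) : ℝ) + 1 + η * J / 2 := by
    have : 0 ≤ η * J / 2 := by positivity
    push_cast
    linarith
  rw [div_le_div_iff₀ h5 hm0]
  push_cast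
  have h6 : (1 / 2 : ℝ) * J ≤ η * J := mul_le_mul_of_nonneg_right hη hJ0
  nlinarith [mul_nonneg hK0 hJ0, mul_nonneg hK0 (sub_nonneg.2 h6)]

end P321
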