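import Vale.Agent.P321.Core

/-!
P321, module LAZY: `N (((1+a)/2)^j (a-1)) ^ 2 ≤ 4 / (j+1)`.
-/

namespace P321
namespace LAZY

open Finset

lemma choose_rec (n : ℕ) (f : ℕ → ℝ) :
    ∑ i ∈ range (n + 2), ((n + 1).choose i : ℝ) * f i
      = ∑ i ∈ range (n + 1), (n.choose i : ℝ) * f i
        + ∑ i ∈ range (n + 1), (n.choose i : ℝ) * f (i + 1) := by
  rw [Finset.sum_range_succ' (fun i => ((n + 1).choose i : ℝ) * f i) (n + 1)]
  have h1 : ∑ i ∈ range (n + 1), ((n + 1).choose (i + 1) : ℝ) * f (i + 1)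
      = ∑ i ∈ range (n + 1), (n.choose i : ℝ) * f (i + 1)
        + ∑ i ∈ range (n + 1), (n.choose (i + 1) : ℝ) * f (i + 1) := by
    rw [← Finset.sum_add_distrib]
    apply Finset.sum_congr rfl
    intro i _
    rw [Nat.choose_succ_succ]
    push_cast
    ring
  have h2 : ∑ i ∈ range (n + 1), (n.choose (i + 1) : ℝ) * f (i + 1) + (n.choose 0 : ℝ) * f 0
      = ∑ i ∈ range (n + 1), (n.choose i : ℝ) * f i := by
    rw [← Finset.sum_range_succ' (fun i => (n.choose i : ℝ) * f i) (n + 1)]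
    rw [Finset.sum_range_succ _ (n + 1)]
    simp
  rw [h1]
  simp only [Nat.choose_zero_right, Nat.cast_one, one_mul] at h2 ⊢
  linarith

lemma second_moment (n : ℕ) : ∀ x : ℝ,
    ∑ i ∈ range (n + 1), (n.choose i : ℝ) * (2 * (i : ℝ) - x) ^ 2
      = 2 ^ n * (((n : ℝ) - x) ^ 2 + n) := by
  induction n with
  | zero => intro x; simp
  | succ n ih =>
    intro x
    rw [choose_rec n (fun i => (2 * (i : ℝ) - x) ^ 2), ih x]
    have h : ∑ i ∈ range (n + 1), (n.choose i : ℝ) * (2 * ((i + 1 : ℕ) : ℝ) - x) ^ 2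
        = ∑ i ∈ range (n + 1), (n.choose i : ℝ) * (2 * (i : ℝ) - (x - 2)) ^ 2 := by
      apply Finset.sum_congr rfl
      intro i _
      push_cast
      ring
    rw [h, ih (x - 2)]
    push_cast
    ring

lemma sum_choose (n : ℕ) : ∑ i ∈ range (n + 1), (n.choose i : ℝ) = 2 ^ n := by
  exact_mod_cast Nat.sum_range_choose n

/-- the coefficients of `(1+a)^j (a-1)` -/
noncomputable def cf (j i : ℕ) : ℝ := (2 * (i : ℝ) - (j + 1)) / (j + 1) * ((j + 1).choose i : ℝ)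

lemma cf_zero (j : ℕ) : cf j 0 = -1 := by
  unfold cf
  have : ((j : ℝ) + 1) ≠ 0 := by positivity
  simp
  field_simp
  ring

lemma cf_succ (j i : ℕ) : cf j (i + 1) = (j.choose i : ℝ) - (j.choose (i + 1) : ℝ) := by
  unfold cf
  have hj : ((j : ℝ) + 1) ≠ 0 := by positivity
  have h1 : ((j + 1 : ℕ) : ℝ) * (j.choose i : ℝ) = ((j + 1).choose (i + 1) : ℝ) * ((i + 1 : ℕ) : ℝ) := by
    exact_mod_cast Nat.add_one_mul_choose_eq j i
  have h2 : ((j + 1).choose (i + 1) : ℝ) = (j.choose i : ℝ) + (j.choose (i + 1) : ℝ) := by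
    exact_mod_cast Nat.choose_succ_succ j i
  push_cast at h1 ⊢
  field_simp
  nlinarith [h1, h2]

lemma sum_abs_sq (j : ℕ) :
    (∑ i ∈ range (j + 2), |cf j i|) ^ 2 ≤ 4 ^ (j + 1) / ((j : ℝ) + 1) := by
  have hj : (0 : ℝ) < (j : ℝ) + 1 := by positivity
  have hcs := Finset.sum_mul_sq_le_sq_mul_sq (range (j + 2))
    (fun i => Real.sqrt ((j + 1).choose i : ℝ))
    (fun i => Real.sqrt ((j + 1).choose i : ℝ) * (|2 * (i : ℝ) - ((j : ℝ) + 1)| / (j + 1)))
  have e1 : ∀ i ∈ range (j + 2), |cf j i| = Real.sqrt ((j + 1).choose i : ℝ) *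
      (Real.sqrt ((j + 1).choose i : ℝ) * (|2 * (i : ℝ) - ((j : ℝ) + 1)| / (j + 1))) := by
    intro i _
    rw [← mul_assoc, Real.mul_self_sqrt (by positivity)]
    unfold cf
    rw [abs_mul, abs_div, abs_of_pos hj, abs_of_nonneg (by positivity : (0:ℝ) ≤ ((j+1).choose i : ℝ))]
    ring
  rw [Finset.sum_congr rfl e1]
  refine hcs.trans ?_
  have e2 : ∑ i ∈ range (j + 2), (Real.sqrt ((j + 1).choose i : ℝ)) ^ 2 = 2 ^ (j + 1) := by
    rw [← sum_choose (j + 1)]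
    apply Finset.sum_congr rfl
    intro i _
    rw [Real.sq_sqrt (by positivity)]
  have e3 : ∑ i ∈ range (j + 2), (Real.sqrt ((j + 1).choose i : ℝ)
      * (|2 * (i : ℝ) - ((j : ℝ) + 1)| / (j + 1))) ^ 2 = 2 ^ (j + 1) / ((j : ℝ) + 1) := by
    have h := second_moment (j + 1) ((j : ℝ) + 1)
    have h' : ∑ i ∈ range (j + 1 + 1), ((j + 1).choose i : ℝ) * (2 * (i : ℝ) - ((j : ℝ) + 1)) ^ 2
        = 2 ^ (j + 1) * ((j : ℝ) + 1) := by
      rw [h]; push_cast; ring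
    have : ∑ i ∈ range (j + 2), (Real.sqrt ((j + 1).choose i : ℝ)
        * (|2 * (i : ℝ) - ((j : ℝ) + 1)| / (j + 1))) ^ 2
        = (∑ i ∈ range (j + 1 + 1), ((j + 1).choose i : ℝ) * (2 * (i : ℝ) - ((j : ℝ) + 1)) ^ 2)
          / ((j : ℝ) + 1) ^ 2 := by
      rw [Finset.sum_div]
      apply Finset.sum_congr rfl
      intro i _
      rw [mul_pow, Real.sq_sqrt (by positivity), div_pow, sq_abs]
      ring
    rw [this, h']
    field_simp
  rw [e2, e3]
  have : (2 : ℝ) ^ (j + 1) * (2 ^ (j + 1) / ((j : ℝ) + 1)) = 4 ^ (j + 1) / ((j : ℝ) + 1) := by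
    rw [← mul_div_assoc, ← mul_pow]; norm_num
  exact this.le

variable {A : Type} [Ring A] [Algebra ℝ A]

lemma expand (a : A) (j : ℕ) :
    (1 + a) ^ j * (a - 1) = ∑ i ∈ range (j + 2), (cf j i) • a ^ i := by
  have h1 : (1 + a) ^ j = ∑ m ∈ range (j + 1), (j.choose m : ℝ) • a ^ m := by
    rw [add_comm, (Commute.one_right a).add_pow]
    apply Finset.sum_congr rfl
    intro m _
    rw [one_pow, mul_one, Algebra.smul_def, map_natCast]
    exact (Nat.cast_commute _ _).symm.eq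
  have h2 : (1 + a) ^ j * (a - 1)
      = ∑ m ∈ range (j + 1), (j.choose m : ℝ) • a ^ (m + 1)
        - ∑ m ∈ range (j + 1), (j.choose m : ℝ) • a ^ m := by
    rw [mul_sub, mul_one, h1, Finset.sum_mul]
    congr 1
    apply Finset.sum_congr rfl
    intro m _
    rw [smul_mul_assoc, pow_succ]
  rw [h2, Finset.sum_range_succ' (fun i => (cf j i) • a ^ i) (j + 1)]
  have h3 : ∑ m ∈ range (j + 1), (j.choose m : ℝ) • a ^ m
      = ∑ m ∈ range (j + 1), (j.choose (m + 1) : ℝ) • a ^ (m + 1) + (1 : ℝ) • a ^ 0 := by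
    have : (1 : ℝ) • a ^ 0 = (j.choose 0 : ℝ) • a ^ 0 := by simp
    rw [this, ← Finset.sum_range_succ' (fun i => (j.choose i : ℝ) • a ^ i) (j + 1)]
    rw [Finset.sum_range_succ _ (j + 1)]
    simp
  rw [h3]
  have h4 : ∑ m ∈ range (j + 1), cf j (m + 1) • a ^ (m + 1)
      = ∑ m ∈ range (j + 1), (j.choose m : ℝ) • a ^ (m + 1)
        - ∑ m ∈ range (j + 1), (j.choose (m + 1) : ℝ) • a ^ (m + 1) := by
    rw [← Finset.sum_sub_distrib]
    apply Finset.sum_congr rfl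
    intro m _
    rw [cf_succ, sub_smul]
  rw [h4, cf_zero]
  simp only [neg_smul]
  abel

lemma nrm_pow_le {N : A → ℝ} (hN : IsNrm N) {a : A} (ha : N a ≤ 1) (i : ℕ) : N (a ^ i) ≤ 1 := by
  induction i with
  | zero => simpa using hN.one_le
  | succ i ih =>
    rw [pow_succ]
    calc N (a ^ i * a) ≤ N (a ^ i) * N a := hN.mul_le _ _
      _ ≤ 1 * 1 := mul_le_mul ih ha (hN.nonneg _) zero_le_one
      _ = 1 := one_mul 1

lemma nrm_zero {N : A → ℝ} (hN : IsNrm N) : N 0 = 0 := by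
  have := hN.smul 0 (0 : A)
  simpa using this

lemma nrm_sum_le {N : A → ℝ} (hN : IsNrm N) {ι : Type*} (s : Finset ι) (f : ι → A) :
    N (∑ i ∈ s, f i) ≤ ∑ i ∈ s, N (f i) := by
  classical
  induction s using Finset.induction_on with
  | empty => simp [nrm_zero hN]
  | insert i s hi ih =>
    rw [Finset.sum_insert hi, Finset.sum_insert hi]
    exact (hN.add_le _ _).trans (by linarith)

lemma main {N : A → ℝ} (hN : IsNrm N) {a : A} (ha : N a ≤ 1) (j : ℕ) :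
    N (((1 / 2 : ℝ) • (1 + a)) ^ j * (a - 1)) ^ 2 ≤ 4 / ((j : ℝ) + 1) := by
  have h1 : ((1 / 2 : ℝ) • (1 + a)) ^ j * (a - 1)
      = ((1 / 2 : ℝ) ^ j) • ∑ i ∈ range (j + 2), (cf j i) • a ^ i := by
    rw [smul_pow, smul_mul_assoc, expand]
  have h2 : N (((1 / 2 : ℝ) • (1 + a)) ^ j * (a - 1))
      ≤ (1 / 2 : ℝ) ^ j * ∑ i ∈ range (j + 2), |cf j i| := by
    rw [h1, hN.smul, abs_of_pos (by positivity)]
    apply mul_le_mul_of_nonneg_left _ (by positivity)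
    refine (nrm_sum_le hN _ _).trans ?_
    apply Finset.sum_le_sum
    intro i _
    rw [hN.smul]
    exact mul_le_of_le_one_right (abs_nonneg _) (nrm_pow_le hN ha i)
  have h3 : N (((1 / 2 : ℝ) • (1 + a)) ^ j * (a - 1)) ^ 2
      ≤ ((1 / 2 : ℝ) ^ j * ∑ i ∈ range (j + 2), |cf j i|) ^ 2 :=
    pow_le_pow_left₀ (hN.nonneg _) h2 2
  refine h3.trans ?_
  rw [mul_pow]
  have h4 := sum_abs_sq j
  calc ((1 / 2 : ℝ) ^ j) ^ 2 * (∑ i ∈ range (j + 2), |cf j i|) ^ 2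
      ≤ ((1 / 2 : ℝ) ^ j) ^ 2 * (4 ^ (j + 1) / ((j : ℝ) + 1)) :=
        mul_le_mul_of_nonneg_left h4 (by positivity)
    _ = 4 / ((j : ℝ) + 1) := by
        have : ((1 / 2 : ℝ) ^ j) ^ 2 * (4 ^ (j + 1)) = 4 := by
          rw [← pow_mul, mul_comm j 2, pow_mul, pow_succ (4 : ℝ) j, ← mul_assoc, ← mul_pow]
          norm_num
        rw [mul_div_assoc', this]

end LAZY

theorem lazy : LazyStatement := by
  intro A _ _ N hN a ha j
  exact LAZY.main hN ha j

end P321
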