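import Vale.Agent.P321.Core

/-! # P321, module LINK: the algebra element `T q w` is the law of the trace -/

namespace P321

namespace LINK

/-- subsets of `Fin (n+1)` -/
def emb (n : ℕ) (S : Finset (Fin n)) : Finset (Fin (n + 1)) := S.map (Fin.succEmb n)

lemma mem_emb_succ {n : ℕ} (S : Finset (Fin n)) (i : Fin n) : i.succ ∈ emb n S ↔ i ∈ S := by
  unfold emb
  rw [Finset.mem_map]
  constructor
  · rintro ⟨j, hj, h⟩
    have : j = i := Fin.succ_injective n h
    rwa [this] at hj
  · intro h
    exact ⟨i, h, rfl⟩

lemma zero_notMem_emb {n : ℕ} (S : Finset (Fin n)) : (0 : Fin (n + 1)) ∉ emb n S := by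
  unfold emb
  rw [Finset.mem_map]
  rintro ⟨j, _, h⟩
  exact Fin.succ_ne_zero j h

lemma card_emb {n : ℕ} (S : Finset (Fin n)) : (emb n S).card = S.card := by
  unfold emb
  rw [Finset.card_map]

lemma sum_subsets {n : ℕ} {β : Type*} [AddCommMonoid β] (f : Finset (Fin (n + 1)) → β) :
    ∑ S : Finset (Fin (n + 1)), f S
      = ∑ S : Finset (Fin n), f (emb n S) + ∑ S : Finset (Fin n), f (insert 0 (emb n S)) := by
  classical
  have h0 : (0 : Fin (n + 1)) ∉ emb n (Finset.univ) := zero_notMem_emb _
  have hu : (Finset.univ : Finset (Finset (Fin (n + 1)))) = (insert 0 (emb n Finset.univ)).powerset := by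
    have : (insert 0 (emb n Finset.univ) : Finset (Fin (n + 1))) = Finset.univ := by
      ext i
      refine Fin.cases ?_ ?_ i
      · simp
      · intro j
        simp only [Finset.mem_insert, Finset.mem_univ, iff_true]
        right
        exact (mem_emb_succ _ _).2 (Finset.mem_univ _)
    rw [this, Finset.powerset_univ]
  have key : ∀ g : Finset (Fin (n + 1)) → β,
      ∑ t ∈ (emb n Finset.univ).powerset, g t = ∑ S : Finset (Fin n), g (emb n S) := by
    intro g
    symm
    refine Finset.sum_bij (fun S _ => emb n S) ?_ ?_ ?_ ?_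
    · intro S _
      rw [Finset.mem_powerset]
      unfold emb
      exact Finset.map_subset_map.2 (Finset.subset_univ _)
    · intro S _ S' _ h
      exact Finset.map_injective _ h
    · intro t ht
      rw [Finset.mem_powerset] at ht
      refine ⟨Finset.univ.filter (fun i : Fin n => i.succ ∈ t), Finset.mem_univ _, ?_⟩
      ext i
      constructor
      · intro hi
        unfold emb at hi
        rw [Finset.mem_map] at hi
        obtain ⟨j, hj, rfl⟩ := hi
        exact (Finset.mem_filter.1 hj).2
      · intro hi
        have h2 := ht hi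
        unfold emb at h2 ⊢
        rw [Finset.mem_map] at h2 ⊢
        obtain ⟨j, _, rfl⟩ := h2
        exact ⟨j, Finset.mem_filter.2 ⟨Finset.mem_univ _, hi⟩, rfl⟩
    · intro S _
      rfl
  rw [hu, Finset.sum_powerset_insert h0, key, key]

lemma trace_succ {n : ℕ} (x : Fin (n + 1) → Bool) (S : Finset (Fin (n + 1)))
    (S' : Finset (Fin n)) (h : ∀ i, i.succ ∈ S ↔ i ∈ S') :
    trace x S = (if (0 : Fin (n + 1)) ∈ S then [x 0] else []) ++ trace (fun i => x i.succ) S' := by
  unfold trace
  rw [List.finRange_succ, List.filter_cons]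
  have h2 : (List.filter (fun i => decide (i ∈ S)) (List.map Fin.succ (List.finRange n)))
      = List.map Fin.succ (List.filter (fun i => decide (i ∈ S')) (List.finRange n)) := by
    rw [List.filter_map]
    congr 1
    refine List.filter_congr (fun i _ => ?_)
    simp only [Function.comp_apply]
    exact decide_eq_decide.2 (h i)
  rw [h2]
  by_cases h0 : (0 : Fin (n + 1)) ∈ S
  · simp [h0, List.map_map, Function.comp_def]
  · simp [h0, List.map_map, Function.comp_def]

lemma trace_emb {n : ℕ} (x : Fin (n + 1) → Bool) (S : Finset (Fin n)) :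
    trace x (emb n S) = trace (fun i => x i.succ) S := by
  rw [trace_succ x (emb n S) S (fun i => mem_emb_succ S i), if_neg (zero_notMem_emb S)]
  rfl

lemma trace_insert {n : ℕ} (x : Fin (n + 1) → Bool) (S : Finset (Fin n)) :
    trace x (insert 0 (emb n S)) = x 0 :: trace (fun i => x i.succ) S := by
  rw [trace_succ x (insert 0 (emb n S)) S ?_, if_pos (Finset.mem_insert_self _ _)]
  · rfl
  · intro i
    rw [Finset.mem_insert, mem_emb_succ]
    constructor
    · rintro (h | h)
      · exact absurd h (Fin.succ_ne_zero i)
      · exact h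
    · exact Or.inr

lemma retain_emb (q : ℝ) {n : ℕ} (S : Finset (Fin n)) :
    retainProb q (emb n S) = q * retainProb q S := by
  unfold retainProb
  rw [card_emb]
  have h : S.card ≤ n := by
    have := Finset.card_le_univ S
    simpa using this
  rw [show n + 1 - S.card = (n - S.card) + 1 by omega, pow_succ]
  ring

lemma retain_insert (q : ℝ) {n : ℕ} (S : Finset (Fin n)) :
    retainProb q (insert 0 (emb n S)) = (1 - q) * retainProb q S := by
  unfold retainProb
  rw [Finset.card_insert_of_notMem (zero_notMem_emb S), card_emb]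
  rw [show n + 1 - (S.card + 1) = n - S.card by omega, pow_succ]
  ring

lemma law_sum (q : ℝ) : ∀ (n : ℕ) (x : Fin n → Bool),
    T q (FreeMonoid.ofList (List.ofFn x))
      = ∑ S : Finset (Fin n),
          MonoidAlgebra.single (FreeMonoid.ofList (trace x S)) (retainProb q S) := by
  intro n
  induction n with
  | zero =>
    intro x
    have h1 : (Finset.univ : Finset (Finset (Fin 0))) = {∅} := by decide
    rw [h1, Finset.sum_singleton]
    have h2 : trace x ∅ = [] := by
      unfold trace
      simp
    rw [h2]
    simp only [List.ofFn_zero, FreeMonoid.ofList_nil, map_one]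
    unfold retainProb
    simp [MonoidAlgebra.one_def]
  | succ n ih =>
    intro x
    rw [List.ofFn_succ, FreeMonoid.ofList_cons, map_mul, ih]
    rw [sum_subsets]
    simp only [trace_emb, trace_insert, retain_emb, retain_insert]
    rw [Finset.mul_sum, ← Finset.sum_add_distrib]
    refine Finset.sum_congr rfl (fun S _ => ?_)
    unfold T
    rw [FreeMonoid.lift_eval_of]
    rw [add_mul, FreeMonoid.ofList_cons]
    congr 1
    · rw [smul_mul_assoc, one_mul, MonoidAlgebra.smul_single]
      rfl
    · unfold X
      rw [smul_mul_assoc, MonoidAlgebra.single_mul_single, MonoidAlgebra.smul_single, one_mul]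
      rfl

end LINK

open LINK in
theorem link : LinkStatement := by
  intro q n x z
  rw [law_sum, MonoidAlgebra.coeff_sum, Finsupp.finsetSum_apply]
  refine Finset.sum_congr rfl (fun S _ => ?_)
  rw [MonoidAlgebra.coeff_single]
  by_cases h : trace x S = z
  · rw [if_pos h, h, Finsupp.single_eq_same]
  · rw [if_neg h, Finsupp.single_eq_of_ne]
    intro hc
    exact h (FreeMonoid.ofList.injective hc.symm)

end P321
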