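import Vale.Agent.P321.Core

/-! # P321, module NEXT: hiding at the next level, before rescaling -/

namespace P321

namespace NEXT

variable {A : Type} [Ring A] [Algebra ℝ A] {N : A → ℝ}

lemma nneg (hN : IsNrm N) (x : A) : N (-x) = N x := by
  have := hN.smul (-1) x
  simpa using this

lemma nsub (hN : IsNrm N) (x y : A) : N (x - y) ≤ N x + N y := by
  rw [sub_eq_add_neg]
  calc N (x + -y) ≤ N x + N (-y) := hN.add_le _ _
    _ = N x + N y := by rw [nneg hN]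

lemma npow (hN : IsNrm N) {a : A} (ha : N a ≤ 1) (k : ℕ) : N (a ^ k) ≤ 1 := by
  induction k with
  | zero => simpa using hN.one_le
  | succ k ih =>
    rw [pow_succ]
    calc N (a ^ k * a) ≤ N (a ^ k) * N a := hN.mul_le _ _
      _ ≤ 1 * 1 := mul_le_mul ih ha (hN.nonneg _) zero_le_one
      _ = 1 := by norm_num

lemma nzero (hN : IsNrm N) : N (0 : A) = 0 := by
  have := hN.smul 0 (0 : A)
  simpa using this

/-- `N (a^{n+s} - a^n) ≤ s N (a^n (a-1))` -/
lemma ndiff (hN : IsNrm N) {a : A} (ha : N a ≤ 1) (n s : ℕ) :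
    N (a ^ (n + s) - a ^ n) ≤ s * N (a ^ n * (a - 1)) := by
  induction s with
  | zero => simp [nzero hN]
  | succ s ih =>
    have e : a ^ (n + (s + 1)) - a ^ n = a ^ s * (a ^ n * (a - 1)) + (a ^ (n + s) - a ^ n) := by
      have h1 : a ^ (n + (s + 1)) = a ^ s * (a ^ n * a) := by
        rw [← pow_succ, ← pow_add]
        congr 1
        ring
      have h2 : a ^ (n + s) = a ^ s * a ^ n := by
        rw [← pow_add]
        congr 1
        ring
      rw [h1, h2]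
      noncomm_ring
    rw [e]
    have h3 : N (a ^ s * (a ^ n * (a - 1))) ≤ N (a ^ n * (a - 1)) := by
      calc N (a ^ s * (a ^ n * (a - 1))) ≤ N (a ^ s) * N (a ^ n * (a - 1)) := hN.mul_le _ _
        _ ≤ 1 * N (a ^ n * (a - 1)) :=
            mul_le_mul_of_nonneg_right (npow hN ha s) (hN.nonneg _)
        _ = N (a ^ n * (a - 1)) := one_mul _
    have h4 := hN.add_le (a ^ s * (a ^ n * (a - 1))) (a ^ (n + s) - a ^ n)
    push_cast
    linarith

lemma tm_le (hN : IsNrm N) {a b : A} (ha : N a ≤ 1) (hb : N b ≤ 1) (j : ℕ) :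
    N (tm a b j).1 ≤ 1 ∧ N (tm a b j).2 ≤ 1 := by
  induction j with
  | zero => exact ⟨ha, hb⟩
  | succ j ih =>
    obtain ⟨h1, h2⟩ := ih
    constructor
    · change N ((tm a b j).1 * (tm a b j).2) ≤ 1
      calc N ((tm a b j).1 * (tm a b j).2) ≤ N (tm a b j).1 * N (tm a b j).2 := hN.mul_le _ _
        _ ≤ 1 * 1 := mul_le_mul h1 h2 (hN.nonneg _) zero_le_one
        _ = 1 := by norm_num
    · change N ((tm a b j).2 * (tm a b j).1) ≤ 1
      calc N ((tm a b j).2 * (tm a b j).1) ≤ N (tm a b j).2 * N (tm a b j).1 := hN.mul_le _ _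
        _ ≤ 1 * 1 := mul_le_mul h2 h1 (hN.nonneg _) zero_le_one
        _ = 1 := by norm_num

lemma mul_close (hN : IsNrm N) {x y X Y : A} {δ : ℝ} (hx : N (x - X) ≤ δ) (hy : N (y - Y) ≤ δ)
    (hy1 : N y ≤ 1) (hX1 : N X ≤ 1) (hδ : 0 ≤ δ) : N (x * y - X * Y) ≤ 2 * δ := by
  have e : x * y - X * Y = (x - X) * y + X * (y - Y) := by noncomm_ring
  rw [e]
  have h1 : N ((x - X) * y) ≤ δ := by
    calc N ((x - X) * y) ≤ N (x - X) * N y := hN.mul_le _ _
      _ ≤ δ * 1 := mul_le_mul hx hy1 (hN.nonneg _) hδ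
      _ = δ := mul_one _
  have h2 : N (X * (y - Y)) ≤ δ := by
    calc N (X * (y - Y)) ≤ N X * N (y - Y) := hN.mul_le _ _
      _ ≤ 1 * δ := mul_le_mul hX1 hy (hN.nonneg _) zero_le_one
      _ = δ := one_mul _
  have h3 := hN.add_le ((x - X) * y) (X * (y - Y))
  linarith

lemma tm_close (hN : IsNrm N) {a b : A} {ε : ℝ} (ha : N a ≤ 1) (hb : N b ≤ 1)
    (hab : N (b - a) ≤ ε) (hε : 0 ≤ ε) (j : ℕ) :
    N ((tm a b j).1 - a ^ (2 ^ j)) ≤ 2 ^ j * ε ∧ N ((tm a b j).2 - a ^ (2 ^ j)) ≤ 2 ^ j * ε := by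
  induction j with
  | zero =>
    constructor
    · change N (a - a ^ (2 ^ 0)) ≤ _
      simp [nzero hN, hε]
    · change N (b - a ^ (2 ^ 0)) ≤ _
      simpa using hab
  | succ j ih =>
    obtain ⟨h1, h2⟩ := ih
    obtain ⟨t1, t2⟩ := tm_le hN ha hb j
    have hp := npow hN ha (2 ^ j)
    have hnn : 0 ≤ (2 : ℝ) ^ j * ε := by positivity
    have e : a ^ (2 ^ (j + 1)) = a ^ (2 ^ j) * a ^ (2 ^ j) := by
      rw [← pow_add]
      congr 1
      ring
    have e2 : (2 : ℝ) ^ (j + 1) * ε = 2 * (2 ^ j * ε) := by ring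
    rw [e, e2]
    exact ⟨mul_close hN h1 h2 t2 hp hnn, mul_close hN h2 h1 t1 hp hnn⟩

lemma pow_close (hN : IsNrm N) {x y : A} {δ : ℝ} (hx : N x ≤ 1) (hy : N y ≤ 1)
    (hxy : N (x - y) ≤ δ) (k : ℕ) : N (x ^ k - y ^ k) ≤ k * δ := by
  induction k with
  | zero => simp [nzero hN]
  | succ k ih =>
    have e : x ^ (k + 1) - y ^ (k + 1) = (x ^ k - y ^ k) * x + y ^ k * (x - y) := by
      rw [pow_succ, pow_succ]
      noncomm_ring
    rw [e]
    have h1 : N ((x ^ k - y ^ k) * x) ≤ N (x ^ k - y ^ k) := by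
      calc N ((x ^ k - y ^ k) * x) ≤ N (x ^ k - y ^ k) * N x := hN.mul_le _ _
        _ ≤ N (x ^ k - y ^ k) * 1 := mul_le_mul_of_nonneg_left hx (hN.nonneg _)
        _ = N (x ^ k - y ^ k) := mul_one _
    have h2 : N (y ^ k * (x - y)) ≤ N (x - y) := by
      calc N (y ^ k * (x - y)) ≤ N (y ^ k) * N (x - y) := hN.mul_le _ _
        _ ≤ 1 * N (x - y) := mul_le_mul_of_nonneg_right (npow hN hy k) (hN.nonneg _)
        _ = N (x - y) := one_mul _
    have h3 := hN.add_le ((x ^ k - y ^ k) * x) (y ^ k * (x - y))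
    push_cast
    linarith

end NEXT

open NEXT in
theorem next : NextStatement := by
  intro A _ _ N hN a b R s m ε ha hb hab
  have hε : 0 ≤ ε := (hN.nonneg _).trans hab
  obtain ⟨t1, -⟩ := tm_le hN ha hb R
  obtain ⟨c1, -⟩ := tm_close hN ha hb hab hε R
  set u := (tm a b R).1
  set v := a ^ s * u * a ^ s with hv
  have hps := npow hN ha s
  have sandwich : ∀ x : A, N (a ^ s * x * a ^ s) ≤ N x := by
    intro x
    calc N (a ^ s * x * a ^ s) ≤ N (a ^ s * x) * N (a ^ s) := hN.mul_le _ _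
      _ ≤ (N (a ^ s) * N x) * 1 := by
          refine mul_le_mul (hN.mul_le _ _) hps (hN.nonneg _) ?_
          exact mul_nonneg (hN.nonneg _) (hN.nonneg _)
      _ ≤ (1 * N x) * 1 := by
          refine mul_le_mul_of_nonneg_right ?_ zero_le_one
          exact mul_le_mul_of_nonneg_right hps (hN.nonneg _)
      _ = N x := by ring
  have hv1 : N v ≤ 1 := (sandwich u).trans t1
  have eL : a ^ (2 * s + 2 ^ R) = a ^ s * a ^ (2 ^ R) * a ^ s := by
    rw [← pow_add, ← pow_add]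
    congr 1
    ring
  have hclose : N (v - a ^ (2 * s + 2 ^ R)) ≤ 2 ^ R * ε := by
    have : v - a ^ (2 * s + 2 ^ R) = a ^ s * (u - a ^ (2 ^ R)) * a ^ s := by
      rw [eL, hv]
      noncomm_ring
    rw [this]
    exact (sandwich _).trans c1
  have hL1 := npow hN ha (2 * s + 2 ^ R)
  have k1 := pow_close hN hv1 hL1 hclose (m + 1)
  have k2 := pow_close hN hv1 hL1 hclose m
  rw [← pow_mul] at k1 k2
  have k3 := ndiff hN ha ((2 * s + 2 ^ R) * m) (2 * s + 2 ^ R)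
  have e : v ^ (m + 1) - v ^ m = (v ^ (m + 1) - a ^ ((2 * s + 2 ^ R) * (m + 1)))
      + (-(v ^ m - a ^ ((2 * s + 2 ^ R) * m))
        + (a ^ ((2 * s + 2 ^ R) * m + (2 * s + 2 ^ R)) - a ^ ((2 * s + 2 ^ R) * m))) := by
    rw [show (2 * s + 2 ^ R) * (m + 1) = (2 * s + 2 ^ R) * m + (2 * s + 2 ^ R) by ring]
    abel
  rw [e]
  have j1 := hN.add_le (v ^ (m + 1) - a ^ ((2 * s + 2 ^ R) * (m + 1)))
    (-(v ^ m - a ^ ((2 * s + 2 ^ R) * m))
        + (a ^ ((2 * s + 2 ^ R) * m + (2 * s + 2 ^ R)) - a ^ ((2 * s + 2 ^ R) * m)))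
  have j2 := hN.add_le (-(v ^ m - a ^ ((2 * s + 2 ^ R) * m)))
    (a ^ ((2 * s + 2 ^ R) * m + (2 * s + 2 ^ R)) - a ^ ((2 * s + 2 ^ R) * m))
  rw [nneg hN] at j2
  push_cast at k1 k2 k3 ⊢
  nlinarith

end P321
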