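import Vale.Agent.P321.Core

/-! # P321, module NRM: the l^1 norm on the algebra of words, laws have norm one -/

namespace P321

namespace NRM

lemma nrm_eq_sum_of_subset (f : Alg) (s : Finset (FreeMonoid Bool))
    (h : f.coeff.support ⊆ s) : nrm f = ∑ w ∈ s, |f.coeff w| := by
  unfold nrm
  refine Finset.sum_subset h (fun w _ hw => ?_)
  rw [Finsupp.notMem_support_iff.1 hw, abs_zero]

lemma nrm_nonneg (f : Alg) : 0 ≤ nrm f := by
  unfold nrm
  exact Finset.sum_nonneg (fun w _ => abs_nonneg _)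

lemma nrm_zero : nrm 0 = 0 := by
  unfold nrm
  simp

lemma nrm_add_le (x y : Alg) : nrm (x + y) ≤ nrm x + nrm y := by
  classical
  set s : Finset (FreeMonoid Bool) := x.coeff.support ∪ y.coeff.support with hs
  have h1 : (x + y).coeff.support ⊆ s := by
    rw [MonoidAlgebra.coeff_add]
    exact Finsupp.support_add
  rw [nrm_eq_sum_of_subset (x + y) s h1, nrm_eq_sum_of_subset x s Finset.subset_union_left,
    nrm_eq_sum_of_subset y s Finset.subset_union_right, ← Finset.sum_add_distrib]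
  refine Finset.sum_le_sum (fun w _ => ?_)
  rw [MonoidAlgebra.coeff_add, Finsupp.add_apply]
  exact abs_add_le _ _

lemma nrm_smul (r : ℝ) (x : Alg) : nrm (r • x) = |r| * nrm x := by
  have h1 : (r • x).coeff.support ⊆ x.coeff.support := by
    rw [MonoidAlgebra.coeff_smul]
    exact Finsupp.support_smul
  rw [nrm_eq_sum_of_subset (r • x) x.coeff.support h1]
  unfold nrm
  rw [Finset.mul_sum]
  refine Finset.sum_congr rfl (fun w _ => ?_)
  rw [MonoidAlgebra.coeff_smul_apply, smul_eq_mul, abs_mul]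

lemma nrm_single (w : FreeMonoid Bool) (r : ℝ) : nrm (MonoidAlgebra.single w r) = |r| := by
  classical
  rw [nrm_eq_sum_of_subset (MonoidAlgebra.single w r) {w}
    (by rw [MonoidAlgebra.coeff_single]; exact Finsupp.support_single_subset)]
  simp

lemma nrm_sum_le {ι : Type*} (s : Finset ι) (f : ι → Alg) :
    nrm (∑ i ∈ s, f i) ≤ ∑ i ∈ s, nrm (f i) := by
  classical
  induction s using Finset.induction_on with
  | empty => simp [nrm_zero]
  | insert a s ha ih =>
    rw [Finset.sum_insert ha, Finset.sum_insert ha]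
    exact (nrm_add_le _ _).trans (add_le_add le_rfl ih)

lemma nrm_mul_le (x y : Alg) : nrm (x * y) ≤ nrm x * nrm y := by
  rw [MonoidAlgebra.mul_def]
  unfold Finsupp.sum
  refine (nrm_sum_le _ _).trans ?_
  have h : nrm x * nrm y = ∑ i ∈ x.coeff.support, |x.coeff i| * nrm y := by
    conv_lhs => rw [nrm]
    rw [Finset.sum_mul]
  rw [h]
  refine Finset.sum_le_sum (fun i _ => ?_)
  refine (nrm_sum_le _ _).trans ?_
  have h2 : |x.coeff i| * nrm y = ∑ j ∈ y.coeff.support, |x.coeff i| * |y.coeff j| := by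
    rw [nrm, Finset.mul_sum]
  rw [h2]
  refine Finset.sum_le_sum (fun j _ => ?_)
  rw [nrm_single, abs_mul]

/-- the sum of the coefficients, as an algebra homomorphism -/
noncomputable def tot : Alg →ₐ[ℝ] ℝ :=
  MonoidAlgebra.lift ℝ ℝ (FreeMonoid Bool) (1 : FreeMonoid Bool →* ℝ)

lemma tot_single (w : FreeMonoid Bool) (r : ℝ) : tot (MonoidAlgebra.single w r) = r := by
  unfold tot
  rw [MonoidAlgebra.lift_single]
  simp

lemma tot_eq_sum (f : Alg) : tot f = ∑ w ∈ f.coeff.support, f.coeff w := by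
  unfold tot
  rw [MonoidAlgebra.lift_apply]
  simp [Finsupp.sum]

lemma tot_le_nrm (f : Alg) : |tot f| ≤ nrm f := by
  rw [tot_eq_sum, nrm]
  exact Finset.abs_sum_le_sum_abs _ _

/-- for an element with nonnegative coefficients the norm is the sum of the coefficients -/
lemma nrm_eq_tot {f : Alg} (hf : ∀ z, 0 ≤ f.coeff z) : nrm f = tot f := by
  rw [tot_eq_sum, nrm]
  exact Finset.sum_congr rfl (fun w _ => abs_of_nonneg (hf w))

lemma coeff_mul_nonneg {f g : Alg} (hf : ∀ z, 0 ≤ f.coeff z) (hg : ∀ z, 0 ≤ g.coeff z)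
    (z : FreeMonoid Bool) : 0 ≤ (f * g).coeff z := by
  classical
  rw [MonoidAlgebra.coeff_mul]
  unfold Finsupp.sum
  refine Finset.sum_nonneg (fun i _ => Finset.sum_nonneg (fun j _ => ?_))
  show 0 ≤ (if i * j = z then f.coeff i * g.coeff j else 0)
  split_ifs
  · exact mul_nonneg (hf _) (hg _)
  · exact le_rfl

lemma coeff_add_nonneg {f g : Alg} (hf : ∀ z, 0 ≤ f.coeff z) (hg : ∀ z, 0 ≤ g.coeff z)
    (z : FreeMonoid Bool) : 0 ≤ (f + g).coeff z := by
  rw [MonoidAlgebra.coeff_add, Finsupp.add_apply]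
  exact add_nonneg (hf z) (hg z)

lemma coeff_smul_nonneg {r : ℝ} (hr : 0 ≤ r) {f : Alg} (hf : ∀ z, 0 ≤ f.coeff z)
    (z : FreeMonoid Bool) : 0 ≤ (r • f).coeff z := by
  rw [MonoidAlgebra.coeff_smul_apply, smul_eq_mul]
  exact mul_nonneg hr (hf z)

lemma coeff_single_nonneg {r : ℝ} (hr : 0 ≤ r) (w z : FreeMonoid Bool) :
    0 ≤ (MonoidAlgebra.single w r : Alg).coeff z := by
  classical
  rw [MonoidAlgebra.coeff_single, Finsupp.single_apply]
  split_ifs
  · exact hr
  · exact le_rfl

lemma coeff_one_nonneg (z : FreeMonoid Bool) : 0 ≤ (1 : Alg).coeff z := by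
  rw [MonoidAlgebra.one_def]
  exact coeff_single_nonneg zero_le_one 1 z

lemma coeff_pow_nonneg {f : Alg} (hf : ∀ z, 0 ≤ f.coeff z) (k : ℕ) :
    ∀ z, 0 ≤ (f ^ k).coeff z := by
  induction k with
  | zero => rw [pow_zero]; exact coeff_one_nonneg
  | succ k ih => rw [pow_succ]; exact coeff_mul_nonneg ih hf

lemma T_nonneg {q : ℝ} (h0 : 0 ≤ q) (h1 : q ≤ 1) (w : W) : ∀ z, 0 ≤ (T q w).coeff z := by
  induction w using FreeMonoid.inductionOn' with
  | one => rw [map_one]; exact coeff_one_nonneg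
  | of_mul b w ih =>
    rw [map_mul]
    refine coeff_mul_nonneg ?_ ih
    unfold T
    rw [FreeMonoid.lift_eval_of]
    refine coeff_add_nonneg (coeff_smul_nonneg h0 coeff_one_nonneg)
      (coeff_smul_nonneg (by linarith) ?_)
    exact coeff_single_nonneg zero_le_one _

lemma tot_T (q : ℝ) (w : W) : tot (T q w) = 1 := by
  induction w using FreeMonoid.inductionOn' with
  | one => rw [map_one, map_one]
  | of_mul b w ih =>
    rw [map_mul, map_mul, ih, mul_one]
    unfold T X
    rw [FreeMonoid.lift_eval_of, map_add, map_smul, map_smul, map_one, tot_single]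
    simp

end NRM

open NRM

theorem nrm_isNrm : NrmStatement where
  nonneg := nrm_nonneg
  add_le := nrm_add_le
  mul_le := nrm_mul_le
  smul := nrm_smul
  one_le := by
    rw [MonoidAlgebra.one_def, nrm_single]
    simp

theorem law : LawStatement := by
  intro q h0 h1 w
  refine ⟨?_, T_nonneg h0 h1 w⟩
  rw [nrm_eq_tot (T_nonneg h0 h1 w), tot_T]

end P321
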