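import Vale.Agent.P321.Core

/-!
P321, module NUM: the numeric recursion.
-/

namespace P321

namespace NumAux

/-- the recursion `(x, c)` to `(2x - 2R - 1, 2c + 5R + 17)` with `R = sqrt x` -/
def st (x0 : ℕ) : ℕ → ℕ × ℕ
  | 0 => (x0, 0)
  | k + 1 => (2 * (st x0 k).1 - 2 * Nat.sqrt (st x0 k).1 - 1,
      2 * (st x0 k).2 + 5 * Nat.sqrt (st x0 k).1 + 17)

/-- the invariant -/
def Inv (C1 x c : ℕ) : Prop := C1 * c + 24 * C1 * Nat.sqrt x ≤ x ∧ 11 ≤ Nat.sqrt x

theorem inv_step {C1 x c : ℕ} (hC : 2 ≤ C1) (h : Inv C1 x c) :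
    Inv C1 (2 * x - 2 * Nat.sqrt x - 1) (2 * c + 5 * Nat.sqrt x + 17) := by
  obtain ⟨h1, h2⟩ := h
  set R := Nat.sqrt x with hR
  have hx1 : R * R ≤ x := Nat.sqrt_le x
  have hx2 : x < (R + 1) * (R + 1) := Nat.lt_succ_sqrt x
  set x' := 2 * x - 2 * R - 1 with hx'
  have hxx : 2 * R + 1 ≤ x := by nlinarith
  have hx'' : x' + 2 * R + 1 = 2 * x := by omega
  set R' := Nat.sqrt x' with hR'
  have hr1 : R' * R' ≤ x' := Nat.sqrt_le x'
  have hr : 2 * R' ≤ 3 * (R + 1) := by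
    by_contra hcon
    push Not at hcon
    have h3 : (3 * (R + 1) + 1) * (3 * (R + 1) + 1) ≤ (2 * R') * (2 * R') :=
      Nat.mul_le_mul hcon hcon
    nlinarith
  have hmono : R ≤ R' := Nat.sqrt_le_sqrt (by omega)
  refine ⟨?_, by omega⟩
  -- C1 (2c+5R+17) + 24 C1 R' ≤ 2x - 2R - 1
  have h3 : 24 * C1 * R' ≤ 36 * C1 * (R + 1) := by nlinarith
  have h4 : C1 * (5 * R + 17) + 36 * C1 * (R + 1) + 2 * R + 1 ≤ 48 * C1 * R := by
    nlinarith
  have h5 : C1 * (2 * c + 5 * R + 17) = 2 * (C1 * c) + C1 * (5 * R + 17) := by ring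
  rw [h5]
  nlinarith

theorem inv_st {C1 : ℕ} (hC : 2 ≤ C1) (k : ℕ) :
    Inv C1 (st ((24 * C1) * (24 * C1)) k).1 (st ((24 * C1) * (24 * C1)) k).2 := by
  induction k with
  | zero =>
    simp only [st, Inv, Nat.sqrt_eq]
    constructor
    · omega
    · omega
  | succ k ih => exact inv_step hC ih

theorem st_lt (x0 k : ℕ) : (st x0 k).2 < (st x0 (k + 1)).2 := by
  simp only [st]; omega

theorem le_st (x0 k : ℕ) : k ≤ (st x0 k).2 := by
  induction k with
  | zero => simp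
  | succ k ih => exact lt_of_le_of_lt ih (st_lt x0 k)

end NumAux

open NumAux

theorem num : NumStatement := by
  intro C
  set C1 : ℕ := 2 * C + 2 with hC1
  have hC : 2 ≤ C1 := by omega
  refine ⟨(24 * C1) * (24 * C1), ?_⟩
  intro P hP0 hPs
  set x0 : ℕ := (24 * C1) * (24 * C1) with hx0
  have hinv : ∀ k, Inv C1 (st x0 k).1 (st x0 k).2 := fun k => inv_st hC k
  have hP : ∀ k, P (st x0 k).1 (st x0 k).2 := by
    intro k
    induction k with
    | zero => exact hP0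
    | succ k ih =>
      obtain ⟨h1, h2⟩ := hinv k
      have h3 := hPs (st x0 k).1 (st x0 k).2 (Nat.sqrt (st x0 k).1) (Nat.sqrt (st x0 k).1 + 2) ih
        (by omega) (by omega)
        (by
          have := Nat.lt_succ_sqrt (st x0 k).1
          simp only [Nat.succ_eq_add_one] at this
          nlinarith)
        (by nlinarith)
      have e : 2 * (st x0 k).2 + 3 * Nat.sqrt (st x0 k).1 + 2 * (Nat.sqrt (st x0 k).1 + 2) + 13
          = (st x0 (k + 1)).2 := by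
        simp only [st]; ring
      rw [e] at h3
      exact h3
  refine ⟨2, ?_⟩
  intro n hn
  -- the last index with 2^(c+1) ≤ n
  have hex : ∃ k, n < 2 ^ ((st x0 k).2 + 1) := by
    refine ⟨n, ?_⟩
    calc n < 2 ^ n := Nat.lt_two_pow_self
      _ ≤ 2 ^ ((st x0 n).2 + 1) := Nat.pow_le_pow_right (by norm_num)
          ((le_st x0 n).trans (Nat.le_succ _))
  set k := Nat.find hex with hk
  have hk1 : n < 2 ^ ((st x0 k).2 + 1) := Nat.find_spec hex
  have hk0 : k ≠ 0 := by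
    intro h0
    rw [h0] at hk1
    simp only [st] at hk1
    omega
  obtain ⟨j, hj⟩ := Nat.exists_eq_succ_of_ne_zero hk0
  have hj1 : ¬ n < 2 ^ ((st x0 j).2 + 1) := Nat.find_min hex (by omega)
  refine ⟨(st x0 j).1, (st x0 j).2, hP j, by omega, ?_⟩
  obtain ⟨h1, h2⟩ := hinv j
  rw [hj] at hk1
  have e : (st x0 (j + 1)).2 = 2 * (st x0 j).2 + 5 * Nat.sqrt (st x0 j).1 + 17 := rfl
  rw [Nat.succ_eq_add_one, e] at hk1
  set c := (st x0 j).2
  set x := (st x0 j).1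
  set R := Nat.sqrt x
  have h3 : C * (2 * c + 5 * R + 17 + 1) + 2 ≤ x := by
    have h4 : C * (2 * c + 5 * R + 17 + 1) + 2 ≤ C1 * c + 24 * C1 * R := by
      rw [hC1]
      nlinarith [Nat.zero_le (C * R), Nat.zero_le c]
    exact h4.trans h1
  calc 4 * n ^ C ≤ 4 * (2 ^ (2 * c + 5 * R + 17 + 1)) ^ C :=
        Nat.mul_le_mul_left _ (Nat.pow_le_pow_left hk1.le C)
    _ = 2 ^ (C * (2 * c + 5 * R + 17 + 1) + 2) := by
        rw [← pow_mul, pow_add, mul_comm (2 * c + 5 * R + 17 + 1) C]; ring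
    _ ≤ 2 ^ x := Nat.pow_le_pow_right (by norm_num) h3

end P321
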