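import Vale.Agent.P321.LAZY

/-!
P321, module RATE: decay rate from a common part.
-/

namespace P321
namespace RATE

variable {A : Type} [Ring A] [Algebra ℝ A]

lemma arith {x η U V F : ℝ} (hx : 1 ≤ x) (h0 : 0 ≤ η) (h1 : η ≤ 1) (hU : U ^ 2 ≤ 4 / (x + 1))
    (hV : V ^ 2 ≤ 4 / x) (hF0 : 0 ≤ F) (hF : F ≤ η * U + (1 - η) * V) :
    F ^ 2 ≤ 4 / (x + η / 2) := by
  have hx0 : 0 < x := by linarith
  have a1 : F ^ 2 ≤ (η * U + (1 - η) * V) ^ 2 := pow_le_pow_left₀ hF0 hF 2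
  have a2 : (η * U + (1 - η) * V) ^ 2 ≤ η * U ^ 2 + (1 - η) * V ^ 2 := by
    nlinarith [mul_nonneg (mul_nonneg h0 (sub_nonneg.2 h1)) (sq_nonneg (U - V))]
  have a3 : η * U ^ 2 + (1 - η) * V ^ 2 ≤ η * (4 / (x + 1)) + (1 - η) * (4 / x) := by
    have := mul_le_mul_of_nonneg_left hU h0
    have := mul_le_mul_of_nonneg_left hV (sub_nonneg.2 h1)
    linarith
  have a4 : η * (4 / (x + 1)) + (1 - η) * (4 / x) ≤ 4 / (x + η / 2) := by
    have hx1 : 0 < x + 1 := by linarith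
    have hxe : 0 < x + η / 2 := by linarith
    have e : η * (4 / (x + 1)) + (1 - η) * (4 / x) = 4 * (x + 1 - η) / (x * (x + 1)) := by
      field_simp
      ring
    rw [e, div_le_div_iff₀ (by positivity) hxe]
    nlinarith [mul_nonneg h0 (by linarith : (0:ℝ) ≤ x - 1 + η)]
  linarith

lemma main {N : A → ℝ} (hN : IsNrm N) {a X c : A} {K : ℕ} {η : ℝ} (ha : N a ≤ 1)
    (h0 : 0 ≤ η) (h1 : η ≤ 1) (hdec : a ^ (K + 1) = X * ((1 / 2 : ℝ) • (1 + a)) + c)
    (hX : N X ≤ η) (hc : N c ≤ 1 - η)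
    (hl : ∀ j : ℕ, N (((1 / 2 : ℝ) • (1 + a)) ^ j * (a - 1)) ^ 2 ≤ 4 / ((j : ℝ) + 1)) :
    ∀ J j0 : ℕ, N (a ^ ((K + 1) * J) * (((1 / 2 : ℝ) • (1 + a)) ^ j0 * (a - 1))) ^ 2
      ≤ 4 / ((j0 : ℝ) + 1 + η * J / 2) := by
  intro J
  induction J with
  | zero =>
    intro j0
    simpa using hl j0
  | succ J ih =>
    intro j0
    set h : A := (1 / 2 : ℝ) • (1 + a) with hh
    have hcomm : Commute h (a ^ ((K + 1) * J)) := by
      apply Commute.pow_right
      rw [hh]
      apply Commute.smul_left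
      exact (Commute.one_left a).add_left (Commute.refl a)
    have e : a ^ ((K + 1) * (J + 1)) * (h ^ j0 * (a - 1))
        = X * (a ^ ((K + 1) * J) * (h ^ (j0 + 1) * (a - 1)))
          + c * (a ^ ((K + 1) * J) * (h ^ j0 * (a - 1))) := by
      have e1 : a ^ ((K + 1) * (J + 1)) = a ^ (K + 1) * a ^ ((K + 1) * J) := by
        rw [← pow_add]; congr 1; ring
      rw [e1, hdec, add_mul, add_mul]
      congr 1
      · rw [pow_succ' h j0]
        calc X * h * a ^ ((K + 1) * J) * (h ^ j0 * (a - 1))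
            = X * ((h * a ^ ((K + 1) * J)) * (h ^ j0 * (a - 1))) := by
              simp only [mul_assoc]
          _ = X * ((a ^ ((K + 1) * J) * h) * (h ^ j0 * (a - 1))) := by rw [hcomm.eq]
          _ = X * (a ^ ((K + 1) * J) * (h * h ^ j0 * (a - 1))) := by simp only [mul_assoc]
      · rw [mul_assoc]
    have hF : N (a ^ ((K + 1) * (J + 1)) * (h ^ j0 * (a - 1)))
        ≤ η * N (a ^ ((K + 1) * J) * (h ^ (j0 + 1) * (a - 1)))
          + (1 - η) * N (a ^ ((K + 1) * J) * (h ^ j0 * (a - 1))) := by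
      rw [e]
      refine (hN.add_le _ _).trans ?_
      apply add_le_add
      · exact (hN.mul_le _ _).trans (mul_le_mul_of_nonneg_right hX (hN.nonneg _))
      · exact (hN.mul_le _ _).trans (mul_le_mul_of_nonneg_right hc (hN.nonneg _))
    have hU := ih (j0 + 1)
    have hV := ih j0
    have hx : (1 : ℝ) ≤ (j0 : ℝ) + 1 + η * J / 2 := by
      have : 0 ≤ η * (J : ℝ) / 2 := by positivity
      have : (0 : ℝ) ≤ (j0 : ℝ) := by positivity
      linarith
    have hU' : N (a ^ ((K + 1) * J) * (h ^ (j0 + 1) * (a - 1))) ^ 2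
        ≤ 4 / (((j0 : ℝ) + 1 + η * J / 2) + 1) := by
      refine hU.trans (le_of_eq ?_)
      push_cast
      ring_nf
    have := arith hx h0 h1 hU' hV (hN.nonneg _) hF
    refine this.trans (le_of_eq ?_)
    push_cast
    ring_nf

end RATE

theorem rate (hlz : LazyStatement) : RateStatement := by
  intro A _ _ N hN a X c K η ha h0 h1 hdec hX hc J j0
  exact RATE.main hN ha h0 h1 hdec hX hc (fun j => hlz A N hN a ha j) J j0

end P321
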