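import Vale.Agent.P321.Core

/-! # P321, module SAMP: sample complexity from closeness of two laws -/

namespace P321

namespace SAMP

lemma retain_nonneg {q : ℝ} (h0 : 0 ≤ q) (h1 : q ≤ 1) {n : ℕ} (S : Finset (Fin n)) :
    0 ≤ retainProb q S := by
  unfold retainProb
  have : 0 ≤ 1 - q := by linarith
  positivity

lemma retain_sum (q : ℝ) (n : ℕ) : ∑ S : Finset (Fin n), retainProb q S = 1 := by
  unfold retainProb
  have := Fintype.sum_pow_mul_eq_add_pow (Fin n) (1 - q) q
  simpa using this

/-- expectation of `f` over `m` independent traces -/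
noncomputable def Ex (q : ℝ) {n : ℕ} (x : Fin n → Bool) (m : ℕ)
    (f : (Fin m → List Bool) → ℝ) : ℝ :=
  ∑ S : Fin m → Finset (Fin n), (∏ i, retainProb q (S i)) * f (fun i => trace x (S i))

lemma Ex_zero (q : ℝ) {n : ℕ} (x : Fin n → Bool) (f : (Fin 0 → List Bool) → ℝ) :
    Ex q x 0 f = f (fun i => i.elim0) := by
  unfold Ex
  rw [Fintype.sum_unique]
  simp only [Finset.univ_eq_empty, Finset.prod_empty, one_mul]
  congr 1
  funext i
  exact i.elim0

lemma Ex_succ (q : ℝ) {n : ℕ} (x : Fin n → Bool) (m : ℕ)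
    (f : (Fin (m + 1) → List Bool) → ℝ) :
    Ex q x (m + 1) f = ∑ S0 : Finset (Fin n), retainProb q S0 *
      Ex q x m (fun ω => f (Fin.cons (trace x S0) ω)) := by
  unfold Ex
  rw [← (Fin.consEquiv (fun _ : Fin (m + 1) => Finset (Fin n))).sum_comp, Fintype.sum_prod_type]
  refine Finset.sum_congr rfl (fun S0 _ => ?_)
  rw [Finset.mul_sum]
  refine Finset.sum_congr rfl (fun S _ => ?_)
  simp only [Fin.consEquiv_apply]
  rw [Fin.prod_univ_succ]
  simp only [Fin.cons_zero, Fin.cons_succ]
  rw [mul_assoc]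
  congr 2
  congr 1
  funext i
  refine Fin.cases ?_ ?_ i
  · simp
  · intro j
    simp

lemma Ex_mono {q : ℝ} (h0 : 0 ≤ q) (h1 : q ≤ 1) {n : ℕ} (x : Fin n → Bool) (m : ℕ)
    {f g : (Fin m → List Bool) → ℝ} (h : ∀ ω, f ω ≤ g ω) : Ex q x m f ≤ Ex q x m g := by
  unfold Ex
  refine Finset.sum_le_sum (fun S _ => ?_)
  refine mul_le_mul_of_nonneg_left (h _) ?_
  exact Finset.prod_nonneg (fun i _ => retain_nonneg h0 h1 _)

lemma Ex_const (q : ℝ) {n : ℕ} (x : Fin n → Bool) (m : ℕ) (c : ℝ) :
    Ex q x m (fun _ => c) = c := by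
  induction m with
  | zero => rw [Ex_zero]
  | succ m ih =>
    rw [Ex_succ]
    simp only [ih]
    rw [← Finset.sum_mul, retain_sum, one_mul]

lemma Ex_sub (q : ℝ) {n : ℕ} (x : Fin n → Bool) (m : ℕ) (f g : (Fin m → List Bool) → ℝ) :
    Ex q x m (fun ω => f ω - g ω) = Ex q x m f - Ex q x m g := by
  unfold Ex
  rw [← Finset.sum_sub_distrib]
  refine Finset.sum_congr rfl (fun S _ => ?_)
  ring

/-- one trace -/
lemma one_step (hlink : LinkStatement) (q : ℝ) {n : ℕ} (x y : Fin n → Bool)
    (g : List Bool → ℝ) (hg0 : ∀ z, 0 ≤ g z) (hg1 : ∀ z, g z ≤ 1) :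
    ∑ S : Finset (Fin n), retainProb q S * (g (trace x S) - g (trace y S))
      ≤ nrm (T q (FreeMonoid.ofList (List.ofFn y)) - T q (FreeMonoid.ofList (List.ofFn x))) := by
  classical
  set Z : Finset (List Bool) := (Finset.univ.image (trace x)) ∪ (Finset.univ.image (trace y))
    with hZ
  have key : ∀ w : Fin n → Bool, (∀ S, trace w S ∈ Z) →
      ∑ S : Finset (Fin n), retainProb q S * g (trace w S)
        = ∑ z ∈ Z, (T q (FreeMonoid.ofList (List.ofFn w))).coeff (FreeMonoid.ofList z) * g z := by
    intro w hw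
    have h1 : ∀ z ∈ Z, (T q (FreeMonoid.ofList (List.ofFn w))).coeff (FreeMonoid.ofList z) * g z
        = ∑ S : Finset (Fin n), if trace w S = z then retainProb q S * g z else 0 := by
      intro z _
      rw [hlink q n w z, Finset.sum_mul]
      refine Finset.sum_congr rfl (fun S _ => ?_)
      split_ifs <;> simp
    rw [Finset.sum_congr rfl h1, Finset.sum_comm]
    refine Finset.sum_congr rfl (fun S _ => ?_)
    rw [Finset.sum_ite_eq]
    rw [if_pos (hw S)]
  have hx : ∀ S, trace x S ∈ Z := fun S => by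
    rw [hZ]
    exact Finset.mem_union_left _ (Finset.mem_image_of_mem _ (Finset.mem_univ _))
  have hy : ∀ S, trace y S ∈ Z := fun S => by
    rw [hZ]
    exact Finset.mem_union_right _ (Finset.mem_image_of_mem _ (Finset.mem_univ _))
  set D := T q (FreeMonoid.ofList (List.ofFn y)) - T q (FreeMonoid.ofList (List.ofFn x)) with hD
  calc ∑ S : Finset (Fin n), retainProb q S * (g (trace x S) - g (trace y S))
      = ∑ z ∈ Z, (-(D.coeff (FreeMonoid.ofList z))) * g z := by
        simp only [mul_sub]
        rw [Finset.sum_sub_distrib, key x hx, key y hy, ← Finset.sum_sub_distrib]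
        refine Finset.sum_congr rfl (fun z _ => ?_)
        rw [hD, MonoidAlgebra.coeff_sub, Finsupp.sub_apply]
        ring
    _ ≤ ∑ z ∈ Z, |D.coeff (FreeMonoid.ofList z)| := by
        refine Finset.sum_le_sum (fun z _ => ?_)
        calc (-(D.coeff (FreeMonoid.ofList z))) * g z
            ≤ |D.coeff (FreeMonoid.ofList z)| * g z :=
              mul_le_mul_of_nonneg_right (neg_le_abs _) (hg0 z)
          _ ≤ |D.coeff (FreeMonoid.ofList z)| * 1 :=
              mul_le_mul_of_nonneg_left (hg1 z) (abs_nonneg _)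
          _ = _ := mul_one _
    _ = ∑ w ∈ Z.map FreeMonoid.ofList.toEmbedding, |D.coeff w| := by
        rw [Finset.sum_map]
        rfl
    _ ≤ nrm D := by
        unfold nrm
        calc ∑ w ∈ Z.map FreeMonoid.ofList.toEmbedding, |D.coeff w|
            = ∑ w ∈ (Z.map FreeMonoid.ofList.toEmbedding).filter (fun w => D.coeff w ≠ 0),
                |D.coeff w| := by
              rw [Finset.sum_filter_of_ne]
              intro w _ hw h0
              exact hw (by rw [h0, abs_zero])
          _ ≤ ∑ w ∈ D.coeff.support, |D.coeff w| := by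
              refine Finset.sum_le_sum_of_subset_of_nonneg ?_ (fun _ _ _ => abs_nonneg _)
              intro w hw
              rw [Finset.mem_filter] at hw
              exact Finsupp.mem_support_iff.2 hw.2

lemma hybrid (hlink : LinkStatement) {q : ℝ} (h0 : 0 ≤ q) (h1 : q ≤ 1) {n : ℕ}
    (x y : Fin n → Bool) (m : ℕ) :
    ∀ f : (Fin m → List Bool) → ℝ, (∀ ω, 0 ≤ f ω) → (∀ ω, f ω ≤ 1) →
      Ex q x m f - Ex q y m f
        ≤ m * nrm (T q (FreeMonoid.ofList (List.ofFn y)) - T q (FreeMonoid.ofList (List.ofFn x))) := by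
  induction m with
  | zero =>
    intro f _ _
    rw [Ex_zero, Ex_zero]
    simp
  | succ m ih =>
    intro f hf0 hf1
    set D := nrm (T q (FreeMonoid.ofList (List.ofFn y)) - T q (FreeMonoid.ofList (List.ofFn x)))
      with hD
    set g : List Bool → ℝ := fun z => Ex q y m (fun ω => f (Fin.cons z ω)) with hg
    have hg0 : ∀ z, 0 ≤ g z := fun z => by
      have := Ex_mono h0 h1 y m (f := fun _ => 0) (g := fun ω => f (Fin.cons z ω))
        (fun ω => hf0 _)
      rwa [Ex_const] at this
    have hg1 : ∀ z, g z ≤ 1 := fun z => by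
      have := Ex_mono h0 h1 y m (f := fun ω => f (Fin.cons z ω)) (g := fun _ => 1)
        (fun ω => hf1 _)
      rwa [Ex_const] at this
    have e : Ex q x (m + 1) f - Ex q y (m + 1) f
        = ∑ S0 : Finset (Fin n), retainProb q S0 *
            (Ex q x m (fun ω => f (Fin.cons (trace x S0) ω))
              - Ex q y m (fun ω => f (Fin.cons (trace x S0) ω)))
          + ∑ S0 : Finset (Fin n), retainProb q S0 * (g (trace x S0) - g (trace y S0)) := by
      rw [Ex_succ, Ex_succ, ← Finset.sum_add_distrib, ← Finset.sum_sub_distrib]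
      refine Finset.sum_congr rfl (fun S0 _ => ?_)
      rw [hg]
      ring
    rw [e]
    have b1 : ∑ S0 : Finset (Fin n), retainProb q S0 *
            (Ex q x m (fun ω => f (Fin.cons (trace x S0) ω))
              - Ex q y m (fun ω => f (Fin.cons (trace x S0) ω))) ≤ m * D := by
      calc ∑ S0 : Finset (Fin n), retainProb q S0 *
            (Ex q x m (fun ω => f (Fin.cons (trace x S0) ω))
              - Ex q y m (fun ω => f (Fin.cons (trace x S0) ω)))
          ≤ ∑ S0 : Finset (Fin n), retainProb q S0 * (m * D) := by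
            refine Finset.sum_le_sum (fun S0 _ => ?_)
            refine mul_le_mul_of_nonneg_left ?_ (retain_nonneg h0 h1 _)
            exact ih _ (fun ω => hf0 _) (fun ω => hf1 _)
        _ = m * D := by rw [← Finset.sum_mul, retain_sum, one_mul]
    have b2 := one_step hlink q x y g hg0 hg1
    push_cast
    linarith

end SAMP

open SAMP in
theorem samp (hlink : LinkStatement) : SampStatement := by
  intro q h0 h1 n m x y hxy hrec
  obtain ⟨est, hnn, hsum, hsucc⟩ := hrec
  have sx : 2 / 3 ≤ Ex q x m (fun ω => est ω x) := hsucc x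
  have sy : 2 / 3 ≤ Ex q y m (fun ω => est ω y) := hsucc y
  have hle : ∀ ω, est ω x ≤ 1 - est ω y := by
    intro ω
    have h := hsum ω
    have h2 : est ω x + est ω y ≤ ∑ z, est ω z := by
      classical
      rw [← Finset.sum_pair hxy]
      exact Finset.sum_le_sum_of_subset_of_nonneg (Finset.subset_univ _) (fun z _ _ => hnn ω z)
    linarith
  have hle1 : ∀ ω, est ω x ≤ 1 := fun ω => by
    have := hle ω
    have := hnn ω y
    linarith
  have hy : Ex q y m (fun ω => est ω x) ≤ 1 / 3 := by
    have h3 := Ex_mono h0 h1 y m hle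
    rw [Ex_sub, Ex_const] at h3
    linarith
  have h4 := hybrid hlink h0 h1 x y m (fun ω => est ω x) (fun ω => hnn ω x) hle1
  linarith

end P321
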