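import Vale.Agent.P321.Core

/-!
P321, module STEP: one level of the construction.
-/

namespace P321

namespace StepAux

theorem map_tm {M M' : Type} [Monoid M] [Monoid M'] (f : M →* M') (a b : M) (j : ℕ) :
    tm (f a) (f b) j = (f (tm a b j).1, f (tm a b j).2) := by
  induction j with
  | zero => rfl
  | succ j ih =>
    simp only [tm, ih, map_mul]

theorem length_pow (A : W) (k : ℕ) : (A ^ k).length = k * A.length := by
  induction k with
  | zero => simp [FreeMonoid.length_one]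
  | succ k ih => rw [pow_succ, FreeMonoid.length_mul, ih]; ring

theorem tm_length (A B : W) (h : A.length = B.length) (j : ℕ) :
    (tm A B j).1.length = 2 ^ j * A.length ∧ (tm A B j).2.length = 2 ^ j * A.length := by
  induction j with
  | zero => simp [tm, h]
  | succ j ih =>
    obtain ⟨h1, h2⟩ := ih
    simp only [tm, FreeMonoid.length_mul, h1, h2]
    constructor <;> ring

theorem mul_cancel {u v u' v' : W} (h : u.length = u'.length) (e : u * v = u' * v') :
    u = u' ∧ v = v' := by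
  have e' : FreeMonoid.toList u ++ FreeMonoid.toList v
      = FreeMonoid.toList u' ++ FreeMonoid.toList v' := by
    rw [← FreeMonoid.toList_mul, ← FreeMonoid.toList_mul, e]
  have := List.append_inj e' h
  exact ⟨FreeMonoid.toList.injective this.1, FreeMonoid.toList.injective this.2⟩

theorem tm_ne (A B : W) (hne : A ≠ B) (h : A.length = B.length) (j : ℕ) :
    (tm A B j).1 ≠ (tm A B j).2 := by
  induction j with
  | zero => exact hne
  | succ j ih =>
    intro e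
    simp only [tm] at e
    have hl := tm_length A B h j
    exact ih (mul_cancel (hl.1.trans hl.2.symm) e).1

theorem hid_mono {A : Type} [Ring A] [Algebra ℝ A] {N : A → ℝ} {a : A} {κ κ' : ℝ}
    (h : Hid N a κ) (hk : κ ≤ κ') : Hid N a κ' := by
  intro m hm
  refine (h m hm).trans ?_
  have hm' : (0 : ℝ) < m := by exact_mod_cast hm
  have : Real.sqrt (κ / m) ≤ Real.sqrt (κ' / m) :=
    Real.sqrt_le_sqrt (div_le_div_of_nonneg_right hk hm'.le)
  linarith

theorem two_mul_le_two_pow (R : ℕ) (hR : 1 ≤ R) : 2 * R ≤ 2 ^ R := by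
  induction R, hR using Nat.le_induction with
  | base => norm_num
  | succ n hn ih => rw [pow_succ]; omega

theorem close_num (x R y : ℕ) (hxR : x ≤ R * y) (hb : 2 * R + 1 ≤ 2 * x) :
    ((1 / 2 : ℝ) ^ y) ^ R * (1 / 2) ^ x + 4 ^ R * ((1 / 2) ^ x) ^ 2
      ≤ (1 / 2) ^ (2 * x - 2 * R - 1) := by
  have h1 : ((1 / 2 : ℝ) ^ y) ^ R * (1 / 2) ^ x ≤ (1 / 2) ^ (2 * x) := by
    rw [← pow_mul, ← pow_add]
    refine pow_le_pow_of_le_one (by norm_num) (by norm_num) ?_
    nlinarith [hxR]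
  have h2 : (4 : ℝ) ^ R * ((1 / 2) ^ x) ^ 2 = 4 ^ R * (1 / 2) ^ (2 * x) := by
    rw [← pow_mul, mul_comm x 2]
  rw [h2]
  have h4 : (1 : ℝ) ≤ 4 ^ R := one_le_pow₀ (by norm_num)
  calc ((1 / 2 : ℝ) ^ y) ^ R * (1 / 2) ^ x + 4 ^ R * (1 / 2) ^ (2 * x)
      ≤ (1 / 2) ^ (2 * x) + 4 ^ R * (1 / 2) ^ (2 * x) := by linarith
    _ ≤ (2 * 4 ^ R) * (1 / 2) ^ (2 * x) := by
        have : (0 : ℝ) ≤ (1 / 2) ^ (2 * x) := by positivity
        nlinarith
    _ = (1 / 2) ^ (2 * x - 2 * R - 1) := by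
        have e3 : 2 * x = (2 * x - 2 * R - 1) + (2 * R + 1) := by omega
        have e4 : (2 : ℝ) * 4 ^ R = 2 ^ (2 * R + 1) := by
          rw [pow_succ, pow_mul]; norm_num; ring
        have e5 : (1 / 2 : ℝ) ^ (2 * x)
            = (1 / 2) ^ (2 * x - 2 * R - 1) * (1 / 2) ^ (2 * R + 1) := by
          rw [← pow_add, ← e3]
        have e6 : (2 : ℝ) ^ (2 * R + 1) * (1 / 2) ^ (2 * R + 1) = 1 := by
          rw [← mul_pow]; norm_num
        rw [e4, e5]
        calc (2 : ℝ) ^ (2 * R + 1) * ((1 / 2) ^ (2 * x - 2 * R - 1) * (1 / 2) ^ (2 * R + 1))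
            = ((2 : ℝ) ^ (2 * R + 1) * (1 / 2) ^ (2 * R + 1)) * (1 / 2) ^ (2 * x - 2 * R - 1) := by
              ring
          _ = (1 / 2) ^ (2 * x - 2 * R - 1) := by rw [e6, one_mul]

theorem L_num (c R y n s : ℕ) (hR : 1 ≤ R) (hn : n = 2 ^ c * 4 ^ (R + 2 + y)) (hs : s = R * n) :
    2 * s + 2 ^ R ≤ 2 ^ (c + 3 * R + 2 * y + 5) := by
  have h2 : 2 * R ≤ 2 ^ R := two_mul_le_two_pow R hR
  have h3 : 2 * s ≤ 2 ^ (c + 3 * R + 2 * y + 4) := by
    calc 2 * s = (2 * R) * n := by rw [hs]; ring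
      _ ≤ 2 ^ R * n := Nat.mul_le_mul_right _ h2
      _ = 2 ^ (c + 3 * R + 2 * y + 4) := by
          rw [hn, show (4 : ℕ) = 2 ^ 2 from rfl, ← pow_mul, ← pow_add, ← pow_add]
          congr 1; ring
  have h4 : 2 ^ R ≤ 2 ^ (c + 3 * R + 2 * y + 4) :=
    Nat.pow_le_pow_right (by norm_num) (by omega)
  calc 2 * s + 2 ^ R
      ≤ 2 ^ (c + 3 * R + 2 * y + 4) + 2 ^ (c + 3 * R + 2 * y + 4) := by omega
    _ = 2 ^ (c + 3 * R + 2 * y + 5) := by ring

theorem eps_num (c R y x K : ℕ) (hK : K ≤ 2 ^ (2 * c + 3 * R + 2 * y + 11))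
    (hbig : 2 * c + 4 * R + 2 * y + 15 ≤ x) :
    (2 * (K : ℝ) + 1) * 2 ^ R * (1 / 2) ^ x ≤ 1 / 2 := by
  have hK1 : (2 * (K : ℝ) + 1) ≤ 2 ^ (2 * c + 3 * R + 2 * y + 13) := by
    have : 2 * K + 1 ≤ 2 ^ (2 * c + 3 * R + 2 * y + 13) := by
      have e1 : 2 ^ (2 * c + 3 * R + 2 * y + 13) = 4 * 2 ^ (2 * c + 3 * R + 2 * y + 11) := by
        rw [show 2 * c + 3 * R + 2 * y + 13 = (2 * c + 3 * R + 2 * y + 11) + 2 from rfl,
          pow_add]
        ring
      have e0 : 1 ≤ 2 ^ (2 * c + 3 * R + 2 * y + 11) := Nat.one_le_two_pow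
      omega
    exact_mod_cast this
  calc (2 * (K : ℝ) + 1) * 2 ^ R * (1 / 2) ^ x
      ≤ 2 ^ (2 * c + 3 * R + 2 * y + 13) * 2 ^ R * (1 / 2) ^ x := by gcongr
    _ = 2 ^ (2 * c + 4 * R + 2 * y + 13) * (1 / 2) ^ x := by
        rw [← pow_add]; congr 2; ring
    _ ≤ 2 ^ (2 * c + 4 * R + 2 * y + 13) * (1 / 2) ^ (2 * c + 4 * R + 2 * y + 15) := by
        gcongr ?_ * ?_
        exact pow_le_pow_of_le_one (by norm_num) (by norm_num) hbig
    _ = (2 * (1 / 2)) ^ (2 * c + 4 * R + 2 * y + 13) * (1 / 2) ^ 2 := by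
        rw [mul_pow, show 2 * c + 4 * R + 2 * y + 15 = (2 * c + 4 * R + 2 * y + 13) + 2
          from rfl, pow_add (1 / 2 : ℝ)]
        ring
    _ ≤ 1 / 2 := by norm_num

end StepAux

open StepAux

theorem step (hn : NrmStatement) (hl : LawStatement) (ht : TMStatement) (hx : NextStatement)
    (hh : HidStatement) : StepStatement := by
  intro q hq0 hq1 x c R y hS hR hy hxR hbig
  obtain ⟨A, B, hne, hlen, hlen2, hclose, hhid⟩ := hS
  have hN : IsNrm nrm := hn
  set a : Alg := T q A with ha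
  set b : Alg := T q B with hb
  have hNa : nrm a ≤ 1 := (hl q hq0 hq1 A).1.le
  have hNb : nrm b ≤ 1 := (hl q hq0 hq1 B).1.le
  set n : ℕ := 2 ^ c * 4 ^ (R + 2 + y) with hndef
  set s : ℕ := R * n with hsdef
  set L : ℕ := 2 * s + 2 ^ R with hLdef
  have hnpos : 1 ≤ n := by
    rw [hndef]; exact Nat.one_le_iff_ne_zero.mpr (by positivity)
  -- hiding constant at n
  have hD : nrm (a ^ n * (a - 1)) ≤ (1 / 2) ^ (R + y) := by
    refine (hhid n hnpos).trans ?_
    have h1 : ((2 : ℝ) ^ c / (n : ℝ)) = ((1 / 2 : ℝ) ^ (R + 2 + y)) ^ 2 := by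
      have h4 : (n : ℝ) = 2 ^ c * 4 ^ (R + 2 + y) := by rw [hndef]; push_cast; ring
      rw [h4, ← pow_mul, mul_comm (R + 2 + y) 2, pow_mul]
      have h5 : ((1 / 2 : ℝ)) ^ 2 = 1 / 4 := by norm_num
      rw [h5, one_div_pow]
      have : (2 : ℝ) ^ c ≠ 0 := by positivity
      field_simp
    rw [h1, Real.sqrt_sq (by positivity)]
    rw [show R + 2 + y = (R + y) + 2 from by ring, pow_add]
    norm_num
    linarith [pow_pos (show (0 : ℝ) < 1 / 2 by norm_num) (R + y)]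
  have hε0 : (0 : ℝ) ≤ (1 / 2) ^ x := by positivity
  -- Thue-Morse estimate
  have hTM := ht Alg nrm hN a b R n ((1 / 2) ^ x) ((1 / 2) ^ y) hNa hNb hclose
    (by
      calc (2 : ℝ) ^ R * nrm (a ^ n * (a - 1)) ≤ 2 ^ R * (1 / 2) ^ (R + y) := by
            gcongr
        _ = (1 / 2) ^ y := by
            rw [pow_add, ← mul_assoc, ← mul_pow]; norm_num)
    (by
      calc (1 / 2 : ℝ) ^ y ≤ (1 / 2) ^ 1 := pow_le_pow_of_le_one (by norm_num) (by norm_num) hy
        _ = 1 / 2 := by norm_num)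
  set U : W := (tm A B R).1 with hU
  set V : W := (tm A B R).2 with hV
  have hmap : tm a b R = (T q U, T q V) := by
    rw [ha, hb, map_tm]
  set A' : W := A ^ s * U * A ^ s with hA'
  set B' : W := A ^ s * V * A ^ s with hB'
  have hTA' : T q A' = a ^ s * (tm a b R).1 * a ^ s := by
    rw [hA', hmap, map_mul, map_mul, map_pow]
  have hTB' : T q B' = a ^ s * (tm a b R).2 * a ^ s := by
    rw [hB', hmap, map_mul, map_mul, map_pow]
  have hlenU := tm_length A B hlen R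
  have hlenA' : A'.length = L * A.length := by
    rw [hA', FreeMonoid.length_mul, FreeMonoid.length_mul, length_pow, hU, hlenU.1, hLdef]; ring
  have hlenB' : B'.length = L * A.length := by
    rw [hB', FreeMonoid.length_mul, FreeMonoid.length_mul, length_pow, hV, hlenU.2, hLdef]; ring
  have hL : L ≤ 2 ^ (c + 3 * R + 2 * y + 5) := L_num c R y n s hR hndef hsdef
  have hLpos : 1 ≤ L := by
    have : 1 ≤ 2 ^ R := Nat.one_le_two_pow
    omega
  set K : ℕ := 64 * 2 ^ c * L with hKdef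
  have hKpos : 1 ≤ K := by
    rw [hKdef]
    exact Nat.one_le_iff_ne_zero.mpr (by positivity)
  have hKle : K ≤ 2 ^ (2 * c + 3 * R + 2 * y + 11) := by
    calc K = 2 ^ (6 + c) * L := by rw [hKdef, pow_add]; norm_num
      _ ≤ 2 ^ (6 + c) * 2 ^ (c + 3 * R + 2 * y + 5) := Nat.mul_le_mul_left _ hL
      _ = 2 ^ (2 * c + 3 * R + 2 * y + 11) := by rw [← pow_add]; congr 1; ring
  -- hiding for the new word
  have hHidNew : Hid nrm (T q A') (2 ^ (2 * c + 3 * R + 2 * y + 13)) := by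
    have hkey : nrm ((T q A') ^ (K + 1) - (T q A') ^ K) ≤ 1 := by
      rw [hTA']
      refine (hx Alg nrm hN a b R s K ((1 / 2) ^ x) hNa hNb hclose).trans ?_
      have h1 : (2 * (K : ℝ) + 1) * 2 ^ R * (1 / 2) ^ x ≤ 1 / 2 := eps_num c R y x K hKle hbig
      have h2 : ((2 * s + 2 ^ R : ℕ) : ℝ) * nrm (a ^ ((2 * s + 2 ^ R) * K) * (a - 1)) ≤ 1 / 2 := by
        have hLK : 1 ≤ L * K := Nat.one_le_iff_ne_zero.mpr
          (Nat.mul_ne_zero (by omega) (by omega))
        have h3 := hhid (L * K) hLK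
        have h4 : ((2 : ℝ) ^ c / ((L * K : ℕ) : ℝ)) = (1 / (8 * (L : ℝ))) ^ 2 := by
          have hL0 : (L : ℝ) ≠ 0 := by
            have : (0 : ℝ) < L := by exact_mod_cast hLpos
            exact this.ne'
          rw [hKdef]; push_cast
          have : (2 : ℝ) ^ c ≠ 0 := by positivity
          field_simp
          norm_num
        have hL0 : (0 : ℝ) < L := by exact_mod_cast hLpos
        rw [h4, Real.sqrt_sq (by positivity)] at h3
        calc ((2 * s + 2 ^ R : ℕ) : ℝ) * nrm (a ^ ((2 * s + 2 ^ R) * K) * (a - 1))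
            ≤ (L : ℝ) * (4 * (1 / (8 * (L : ℝ)))) := by
              have : ((2 * s + 2 ^ R : ℕ) : ℝ) = (L : ℝ) := by rw [hLdef]
              rw [this]
              exact mul_le_mul_of_nonneg_left h3 hL0.le
          _ = 1 / 2 := by field_simp; norm_num
      linarith
    refine hid_mono (hh q hq0 hq1 A' K hkey) ?_
    have : K + 1 ≤ 2 ^ (2 * c + 3 * R + 2 * y + 13) := by
      have e1 : 2 ^ (2 * c + 3 * R + 2 * y + 13) = 4 * 2 ^ (2 * c + 3 * R + 2 * y + 11) := by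
        rw [show 2 * c + 3 * R + 2 * y + 13 = (2 * c + 3 * R + 2 * y + 11) + 2 from rfl, pow_add]
        ring
      have e0 : 1 ≤ 2 ^ (2 * c + 3 * R + 2 * y + 11) := Nat.one_le_two_pow
      omega
    exact_mod_cast this
  -- closeness
  have hCloseNew : nrm (T q B' - T q A') ≤ (1 / 2) ^ (2 * x - 2 * R - 1) := by
    have e1 : T q B' - T q A'
        = (-1 : ℝ) • (a ^ s * ((tm a b R).1 - (tm a b R).2) * a ^ s) := by
      rw [hTA', hTB', neg_one_smul]
      noncomm_ring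
    rw [e1, hN.smul]
    have e2 : |(-1 : ℝ)| = 1 := by norm_num
    rw [e2, one_mul]
    exact hTM.trans (close_num x R y hxR (by omega))
  refine ⟨A', B', ?_, ?_, ?_, hCloseNew, hHidNew⟩
  · intro e
    have h1 : (A ^ s * U).length = (A ^ s * V).length := by
      rw [FreeMonoid.length_mul, FreeMonoid.length_mul, hU, hV, hlenU.1, hlenU.2]
    have h2 := (mul_cancel h1 e).1
    have h3 := (mul_cancel rfl h2).2
    exact tm_ne A B hne hlen R h3
  · rw [hlenA', hlenB']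
  · rw [hlenA']
    calc L * A.length ≤ 2 ^ (c + 3 * R + 2 * y + 5) * 2 ^ (c + 1) := Nat.mul_le_mul hL hlen2
      _ = 2 ^ (2 * c + 3 * R + 2 * y + 6) := by rw [← pow_add]; congr 1; ring
      _ ≤ 2 ^ (2 * c + 3 * R + 2 * y + 13 + 1) := Nat.pow_le_pow_right (by norm_num) (by omega)

end P321
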