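import Vale.Agent.P321.Core

/-! # P321, module TMS: the Thue-Morse step -/

namespace P321

namespace TMS

variable {A : Type} [Ring A] [Algebra ℝ A] {N : A → ℝ}

lemma nneg (hN : IsNrm N) (x : A) : N (-x) = N x := by
  have := hN.smul (-1) x
  simpa using this

lemma nsub (hN : IsNrm N) (x y : A) : N (x - y) ≤ N x + N y := by
  rw [sub_eq_add_neg]
  calc N (x + -y) ≤ N x + N (-y) := hN.add_le _ _
    _ = N x + N y := by rw [nneg hN]

lemma npow (hN : IsNrm N) {a : A} (ha : N a ≤ 1) (k : ℕ) : N (a ^ k) ≤ 1 := by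
  induction k with
  | zero => simpa using hN.one_le
  | succ k ih =>
    rw [pow_succ]
    calc N (a ^ k * a) ≤ N (a ^ k) * N a := hN.mul_le _ _
      _ ≤ 1 * 1 := mul_le_mul ih ha (hN.nonneg _) zero_le_one
      _ = 1 := by norm_num

lemma nzero (hN : IsNrm N) : N (0 : A) = 0 := by
  have := hN.smul 0 (0 : A)
  simpa using this

/-- `N (a^{n+s} - a^n) ≤ s N (a^n (a-1))` -/
lemma ndiff (hN : IsNrm N) {a : A} (ha : N a ≤ 1) (n s : ℕ) :
    N (a ^ (n + s) - a ^ n) ≤ s * N (a ^ n * (a - 1)) := by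
  induction s with
  | zero => simp [nzero hN]
  | succ s ih =>
    have e : a ^ (n + (s + 1)) - a ^ n = a ^ s * (a ^ n * (a - 1)) + (a ^ (n + s) - a ^ n) := by
      have h1 : a ^ (n + (s + 1)) = a ^ s * (a ^ n * a) := by
        rw [← pow_succ, ← pow_add]
        congr 1
        ring
      have h2 : a ^ (n + s) = a ^ s * a ^ n := by
        rw [← pow_add]
        congr 1
        ring
      rw [h1, h2]
      noncomm_ring
    rw [e]
    have h3 : N (a ^ s * (a ^ n * (a - 1))) ≤ N (a ^ n * (a - 1)) := by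
      calc N (a ^ s * (a ^ n * (a - 1))) ≤ N (a ^ s) * N (a ^ n * (a - 1)) := hN.mul_le _ _
        _ ≤ 1 * N (a ^ n * (a - 1)) :=
            mul_le_mul_of_nonneg_right (npow hN ha s) (hN.nonneg _)
        _ = N (a ^ n * (a - 1)) := one_mul _
    have h4 := hN.add_le (a ^ s * (a ^ n * (a - 1))) (a ^ (n + s) - a ^ n)
    push_cast
    linarith

lemma tm_le (hN : IsNrm N) {a b : A} (ha : N a ≤ 1) (hb : N b ≤ 1) (j : ℕ) :
    N (tm a b j).1 ≤ 1 ∧ N (tm a b j).2 ≤ 1 := by
  induction j with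
  | zero => exact ⟨ha, hb⟩
  | succ j ih =>
    obtain ⟨h1, h2⟩ := ih
    constructor
    · change N ((tm a b j).1 * (tm a b j).2) ≤ 1
      calc N ((tm a b j).1 * (tm a b j).2) ≤ N (tm a b j).1 * N (tm a b j).2 := hN.mul_le _ _
        _ ≤ 1 * 1 := mul_le_mul h1 h2 (hN.nonneg _) zero_le_one
        _ = 1 := by norm_num
    · change N ((tm a b j).2 * (tm a b j).1) ≤ 1
      calc N ((tm a b j).2 * (tm a b j).1) ≤ N (tm a b j).2 * N (tm a b j).1 := hN.mul_le _ _
        _ ≤ 1 * 1 := mul_le_mul h2 h1 (hN.nonneg _) zero_le_one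
        _ = 1 := by norm_num

lemma mul_close (hN : IsNrm N) {x y X Y : A} {δ : ℝ} (hx : N (x - X) ≤ δ) (hy : N (y - Y) ≤ δ)
    (hy1 : N y ≤ 1) (hX1 : N X ≤ 1) (hδ : 0 ≤ δ) : N (x * y - X * Y) ≤ 2 * δ := by
  have e : x * y - X * Y = (x - X) * y + X * (y - Y) := by noncomm_ring
  rw [e]
  have h1 : N ((x - X) * y) ≤ δ := by
    calc N ((x - X) * y) ≤ N (x - X) * N y := hN.mul_le _ _
      _ ≤ δ * 1 := mul_le_mul hx hy1 (hN.nonneg _) hδ
      _ = δ := mul_one _
  have h2 : N (X * (y - Y)) ≤ δ := by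
    calc N (X * (y - Y)) ≤ N X * N (y - Y) := hN.mul_le _ _
      _ ≤ 1 * δ := mul_le_mul hX1 hy (hN.nonneg _) zero_le_one
      _ = δ := one_mul _
  have h3 := hN.add_le ((x - X) * y) (X * (y - Y))
  linarith

lemma tm_close (hN : IsNrm N) {a b : A} {ε : ℝ} (ha : N a ≤ 1) (hb : N b ≤ 1)
    (hab : N (b - a) ≤ ε) (hε : 0 ≤ ε) (j : ℕ) :
    N ((tm a b j).1 - a ^ (2 ^ j)) ≤ 2 ^ j * ε ∧ N ((tm a b j).2 - a ^ (2 ^ j)) ≤ 2 ^ j * ε := by
  induction j with
  | zero =>
    constructor
    · change N (a - a ^ (2 ^ 0)) ≤ _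
      simp [nzero hN, hε]
    · change N (b - a ^ (2 ^ 0)) ≤ _
      simpa using hab
  | succ j ih =>
    obtain ⟨h1, h2⟩ := ih
    obtain ⟨t1, t2⟩ := tm_le hN ha hb j
    have hp := npow hN ha (2 ^ j)
    have hnn : 0 ≤ (2 : ℝ) ^ j * ε := by positivity
    have e : a ^ (2 ^ (j + 1)) = a ^ (2 ^ j) * a ^ (2 ^ j) := by
      rw [← pow_add]
      congr 1
      ring
    have e2 : (2 : ℝ) ^ (j + 1) * ε = 2 * (2 ^ j * ε) := by ring
    rw [e, e2]
    exact ⟨mul_close hN h1 h2 t2 hp hnn, mul_close hN h2 h1 t1 hp hnn⟩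

lemma tm_diff (hN : IsNrm N) {a b : A} {ε : ℝ} (ha : N a ≤ 1) (hb : N b ≤ 1)
    (hab : N (b - a) ≤ ε) (j : ℕ) :
    N ((tm a b j).1 - (tm a b j).2) ≤ 2 ^ j * ε := by
  induction j with
  | zero =>
    change N (a - b) ≤ _
    have : N (a - b) = N (b - a) := by rw [← nneg hN, neg_sub]
    rw [this]
    simpa using hab
  | succ j ih =>
    obtain ⟨t1, t2⟩ := tm_le hN ha hb j
    change N ((tm a b j).1 * (tm a b j).2 - (tm a b j).2 * (tm a b j).1) ≤ _
    set u := (tm a b j).1
    set v := (tm a b j).2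
    have e : u * v - v * u = (u - v) * v - v * (u - v) := by noncomm_ring
    rw [e]
    have h1 : N ((u - v) * v) ≤ N (u - v) := by
      calc N ((u - v) * v) ≤ N (u - v) * N v := hN.mul_le _ _
        _ ≤ N (u - v) * 1 := mul_le_mul_of_nonneg_left t2 (hN.nonneg _)
        _ = N (u - v) := mul_one _
    have h2 : N (v * (u - v)) ≤ N (u - v) := by
      calc N (v * (u - v)) ≤ N v * N (u - v) := hN.mul_le _ _
        _ ≤ 1 * N (u - v) := mul_le_mul_of_nonneg_right t2 (hN.nonneg _)
        _ = N (u - v) := one_mul _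
    have h3 := nsub hN ((u - v) * v) (v * (u - v))
    have e2 : (2 : ℝ) ^ (j + 1) * ε = 2 * (2 ^ j * ε) := by ring
    rw [e2]
    linarith

end TMS

open TMS in
theorem tms : TMStatement := by
  intro A _ _ N hN a b R n ε β ha hb hab hβ hβ2
  have hε : 0 ≤ ε := (hN.nonneg _).trans hab
  have hD : 0 ≤ N (a ^ n * (a - 1)) := hN.nonneg _
  have hβ0 : 0 ≤ β := le_trans (by positivity) hβ
  have main : ∀ j, j ≤ R →
      N (a ^ (j * n) * ((tm a b j).1 - (tm a b j).2) * a ^ (j * n)) ≤ β ^ j * ε + 4 ^ j * ε ^ 2 := by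
    intro j
    induction j with
    | zero =>
      intro _
      change N (a ^ (0 * n) * (a - b) * a ^ (0 * n)) ≤ _
      have h0 : N (a - b) = N (b - a) := by rw [← nneg hN, neg_sub]
      simp only [zero_mul, pow_zero, one_mul, mul_one]
      rw [h0]
      nlinarith [sq_nonneg ε]
    | succ j ih =>
      intro hj
      have ihj := ih (by omega)
      obtain ⟨t1, t2⟩ := tm_le hN ha hb j
      obtain ⟨-, c2⟩ := tm_close hN ha hb hab hε j
      have dj := tm_diff hN ha hb hab j
      change N (a ^ ((j + 1) * n) * ((tm a b j).1 * (tm a b j).2 - (tm a b j).2 * (tm a b j).1)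
        * a ^ ((j + 1) * n)) ≤ _
      set u := (tm a b j).1
      set v := (tm a b j).2
      set s := 2 ^ j with hs
      set r := v - a ^ s with hr
      set d := u - v with hd
      set g := a ^ (j * n) * d * a ^ (j * n) with hg
      have ep1 : a ^ ((j + 1) * n) = a ^ n * a ^ (j * n) := by
        rw [← pow_add]
        congr 1
        ring
      have ep2 : a ^ ((j + 1) * n) = a ^ (j * n) * a ^ n := by
        rw [← pow_add]
        congr 1
        ring
      have ecomm : a ^ (j * n) * a ^ s = a ^ s * a ^ (j * n) := by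
        rw [← pow_add, ← pow_add]
        congr 1
        ring
      have ecomm2 : a ^ n * a ^ s = a ^ s * a ^ n := by
        rw [← pow_add, ← pow_add]
        congr 1
        ring
      have epn : a ^ (n + s) = a ^ n * a ^ s := pow_add _ _ _
      have e : a ^ ((j + 1) * n) * (u * v - v * u) * a ^ ((j + 1) * n)
          = (a ^ n * g * (a ^ (n + s) - a ^ n) - (a ^ (n + s) - a ^ n) * g * a ^ n)
            + (a ^ ((j + 1) * n) * (d * r) * a ^ ((j + 1) * n)
              - a ^ ((j + 1) * n) * (r * d) * a ^ ((j + 1) * n)) := by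
        have h1 : u * v - v * u = (d * a ^ s - a ^ s * d) + (d * r - r * d) := by
          rw [hr, hd]
          noncomm_ring
        have h2 : a ^ ((j + 1) * n) * (d * a ^ s) * a ^ ((j + 1) * n)
            = a ^ n * g * a ^ (n + s) := by
          rw [hg, epn, ecomm2]
          calc a ^ ((j + 1) * n) * (d * a ^ s) * a ^ ((j + 1) * n)
              = (a ^ n * a ^ (j * n)) * (d * a ^ s) * (a ^ (j * n) * a ^ n) := by
                rw [← ep1, ← ep2]
            _ = a ^ n * a ^ (j * n) * d * (a ^ s * a ^ (j * n)) * a ^ n := by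
                simp only [mul_assoc]
            _ = a ^ n * a ^ (j * n) * d * (a ^ (j * n) * a ^ s) * a ^ n := by rw [ecomm]
            _ = a ^ n * (a ^ (j * n) * d * a ^ (j * n)) * (a ^ s * a ^ n) := by
                simp only [mul_assoc]
        have h3 : a ^ ((j + 1) * n) * (a ^ s * d) * a ^ ((j + 1) * n)
            = a ^ (n + s) * g * a ^ n := by
          rw [hg, epn]
          calc a ^ ((j + 1) * n) * (a ^ s * d) * a ^ ((j + 1) * n)
              = (a ^ n * a ^ (j * n)) * (a ^ s * d) * (a ^ (j * n) * a ^ n) := by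
                rw [← ep1, ← ep2]
            _ = a ^ n * (a ^ (j * n) * a ^ s) * d * a ^ (j * n) * a ^ n := by
                simp only [mul_assoc]
            _ = a ^ n * (a ^ s * a ^ (j * n)) * d * a ^ (j * n) * a ^ n := by rw [ecomm]
            _ = a ^ n * a ^ s * (a ^ (j * n) * d * a ^ (j * n)) * a ^ n := by
                simp only [mul_assoc]
        calc a ^ ((j + 1) * n) * (u * v - v * u) * a ^ ((j + 1) * n)
            = (a ^ ((j + 1) * n) * (d * a ^ s) * a ^ ((j + 1) * n)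
                - a ^ ((j + 1) * n) * (a ^ s * d) * a ^ ((j + 1) * n))
              + (a ^ ((j + 1) * n) * (d * r) * a ^ ((j + 1) * n)
              - a ^ ((j + 1) * n) * (r * d) * a ^ ((j + 1) * n)) := by
              rw [h1]
              simp only [mul_add, mul_sub, add_mul, sub_mul]
          _ = _ := by
              rw [h2, h3]
              simp only [mul_sub, sub_mul]
              abel
      rw [e]
      have hpn := npow hN ha n
      have hpj := npow hN ha ((j + 1) * n)
      have hdf := ndiff hN ha n s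
      have hg0 : 0 ≤ N g := hN.nonneg _
      have hDs : 0 ≤ (s : ℝ) * N (a ^ n * (a - 1)) := by positivity
      have b1 : N (a ^ n * g * (a ^ (n + s) - a ^ n)) ≤ N g * ((s : ℝ) * N (a ^ n * (a - 1))) := by
        calc N (a ^ n * g * (a ^ (n + s) - a ^ n)) ≤ N (a ^ n * g) * N (a ^ (n + s) - a ^ n) :=
              hN.mul_le _ _
          _ ≤ (1 * N g) * ((s : ℝ) * N (a ^ n * (a - 1))) := by
              refine mul_le_mul ?_ hdf (hN.nonneg _) (by linarith)
              exact (hN.mul_le _ _).trans (mul_le_mul_of_nonneg_right hpn hg0)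
          _ = _ := by rw [one_mul]
      have b2 : N ((a ^ (n + s) - a ^ n) * g * a ^ n) ≤ N g * ((s : ℝ) * N (a ^ n * (a - 1))) := by
        calc N ((a ^ (n + s) - a ^ n) * g * a ^ n) ≤ N ((a ^ (n + s) - a ^ n) * g) * N (a ^ n) :=
              hN.mul_le _ _
          _ ≤ (N (a ^ (n + s) - a ^ n) * N g) * 1 := by
              refine mul_le_mul (hN.mul_le _ _) hpn (hN.nonneg _) ?_
              exact mul_nonneg (hN.nonneg _) hg0
          _ ≤ (((s : ℝ) * N (a ^ n * (a - 1))) * N g) * 1 := by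
              refine mul_le_mul_of_nonneg_right ?_ zero_le_one
              exact mul_le_mul_of_nonneg_right hdf hg0
          _ = _ := by ring
      have hr' : N r ≤ 2 ^ j * ε := c2
      have hd' : N d ≤ 2 ^ j * ε := dj
      have hnn : (0 : ℝ) ≤ 2 ^ j * ε := by positivity
      have sandwich : ∀ x : A, N (a ^ ((j + 1) * n) * x * a ^ ((j + 1) * n)) ≤ N x := by
        intro x
        calc N (a ^ ((j + 1) * n) * x * a ^ ((j + 1) * n))
            ≤ N (a ^ ((j + 1) * n) * x) * N (a ^ ((j + 1) * n)) := hN.mul_le _ _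
          _ ≤ (N (a ^ ((j + 1) * n)) * N x) * 1 := by
              refine mul_le_mul (hN.mul_le _ _) hpj (hN.nonneg _) ?_
              exact mul_nonneg (hN.nonneg _) (hN.nonneg _)
          _ ≤ (1 * N x) * 1 := by
              refine mul_le_mul_of_nonneg_right ?_ zero_le_one
              exact mul_le_mul_of_nonneg_right hpj (hN.nonneg _)
          _ = N x := by ring
      have b3 : N (a ^ ((j + 1) * n) * (d * r) * a ^ ((j + 1) * n)) ≤ (2 ^ j * ε) * (2 ^ j * ε) := by
        refine (sandwich _).trans ((hN.mul_le _ _).trans ?_)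
        exact mul_le_mul hd' hr' (hN.nonneg _) hnn
      have b4 : N (a ^ ((j + 1) * n) * (r * d) * a ^ ((j + 1) * n)) ≤ (2 ^ j * ε) * (2 ^ j * ε) := by
        refine (sandwich _).trans ((hN.mul_le _ _).trans ?_)
        exact mul_le_mul hr' hd' (hN.nonneg _) hnn
      have c1 := nsub hN (a ^ n * g * (a ^ (n + s) - a ^ n)) ((a ^ (n + s) - a ^ n) * g * a ^ n)
      have c3 := nsub hN (a ^ ((j + 1) * n) * (d * r) * a ^ ((j + 1) * n))
        (a ^ ((j + 1) * n) * (r * d) * a ^ ((j + 1) * n))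
      have c4 := hN.add_le
        (a ^ n * g * (a ^ (n + s) - a ^ n) - (a ^ (n + s) - a ^ n) * g * a ^ n)
        (a ^ ((j + 1) * n) * (d * r) * a ^ ((j + 1) * n)
              - a ^ ((j + 1) * n) * (r * d) * a ^ ((j + 1) * n))
      -- 2 s D ≤ β
      have hsβ : 2 * ((s : ℝ) * N (a ^ n * (a - 1))) ≤ β := by
        refine le_trans ?_ hβ
        have h5 : (2 : ℝ) * s ≤ 2 ^ R := by
          rw [hs]
          push_cast
          calc (2 : ℝ) * 2 ^ j = 2 ^ (j + 1) := by ring
            _ ≤ 2 ^ R := pow_le_pow_right₀ (by norm_num) hj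
        calc 2 * ((s : ℝ) * N (a ^ n * (a - 1))) = (2 * s) * N (a ^ n * (a - 1)) := by ring
          _ ≤ 2 ^ R * N (a ^ n * (a - 1)) := mul_le_mul_of_nonneg_right h5 hD
      have hGβ : 2 * (N g * ((s : ℝ) * N (a ^ n * (a - 1)))) ≤ β * (β ^ j * ε + 4 ^ j * ε ^ 2) := by
        calc 2 * (N g * ((s : ℝ) * N (a ^ n * (a - 1))))
            = (2 * ((s : ℝ) * N (a ^ n * (a - 1)))) * N g := by ring
          _ ≤ β * (β ^ j * ε + 4 ^ j * ε ^ 2) := mul_le_mul hsβ ihj hg0 hβ0
      have h4j : (0 : ℝ) ≤ 4 ^ j * ε ^ 2 := by positivity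
      have h44 : (2 ^ j * ε) * (2 ^ j * ε) = 4 ^ j * ε ^ 2 := by
        have : (4 : ℝ) ^ j = 2 ^ j * 2 ^ j := by
          rw [← mul_pow]
          norm_num
        rw [this]
        ring
      rw [h44] at b3 b4
      have hfin : β * (β ^ j * ε + 4 ^ j * ε ^ 2) + 2 * (4 ^ j * ε ^ 2)
          ≤ β ^ (j + 1) * ε + 4 ^ (j + 1) * ε ^ 2 := by
        have : β * (4 ^ j * ε ^ 2) ≤ 1 / 2 * (4 ^ j * ε ^ 2) :=
          mul_le_mul_of_nonneg_right hβ2 h4j
        have e5 : β ^ (j + 1) * ε + 4 ^ (j + 1) * ε ^ 2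
            = β * (β ^ j * ε) + 4 * (4 ^ j * ε ^ 2) := by ring
        rw [e5]
        linarith
      linarith
  exact main R le_rfl

end P321
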